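import Vale.Agent.P248.Balanced.Sections

/-!
# Cones over the flat faces of the orthant pieces

For `x ∈ K` in the orthant `s`, the cones from `x` over the pieces of the coordinate sections
in that orthant fit into `K ∩ orthant s`.
-/

open MeasureTheory Set
open scoped Pointwise
open scoped ENNReal

noncomputable section

namespace Vale.Agent.P248.Balanced

variable {n : ℕ}

/-- The part of the orthant piece of `K` nearest, in proportion to `x`, to the face `i`. -/
def cone (K : Set (Fin (n + 1) → ℝ)) (s : Fin (n + 1) → Bool) (x : Fin (n + 1) → ℝ)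
    (i : Fin (n + 1)) : Set (Fin (n + 1) → ℝ) :=
  (K ∩ orthant s) ∩ {z | ∀ j, |x j| * |z i| ≤ |x i| * |z j|}

theorem measurableSet_cone {K : Set (Fin (n + 1) → ℝ)} (hK : MeasurableSet K)
    (s : Fin (n + 1) → Bool) (x : Fin (n + 1) → ℝ) (i : Fin (n + 1)) :
    MeasurableSet (cone K s x i) := by
  refine (hK.inter (isClosed_orthant s).measurableSet).inter ?_
  have h : {z : Fin (n + 1) → ℝ | ∀ j, |x j| * |z i| ≤ |x i| * |z j|} =
      ⋂ j, {z | |x j| * |z i| ≤ |x i| * |z j|} := by ext z; simp
  rw [h]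
  exact MeasurableSet.iInter fun j => (isClosed_le (by fun_prop) (by fun_prop)).measurableSet

theorem lintegral_pow {a : ℝ} (ha : a ≠ 0) (n : ℕ) :
    ∫⁻ t in uIcc 0 a, ENNReal.ofReal ((1 - t / a) ^ n) = ENNReal.ofReal (|a| / (n + 1)) := by
  have hnn : ∀ t ∈ uIcc 0 a, 0 ≤ (1 - t / a) ^ n := by
    intro t ht
    refine pow_nonneg ?_ _
    rcases lt_or_gt_of_ne ha with h | h
    · rw [uIcc_of_ge h.le] at ht
      rw [sub_nonneg, div_le_one_of_neg h]
      exact ht.1
    · rw [uIcc_of_le h.le] at ht
      rw [sub_nonneg, div_le_one h]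
      exact ht.2
  have hc : Continuous fun t : ℝ => (1 - t / a) ^ n := by fun_prop
  rw [← ofReal_integral_eq_lintegral_ofReal hc.continuousOn.integrableOn_uIcc
    (ae_restrict_of_forall_mem measurableSet_uIcc hnn)]
  congr 1
  have hI : ∫ t in (0 : ℝ)..a, (1 - t / a) ^ n = a / (n + 1) := by
    rw [intervalIntegral.integral_comp_sub_div (fun t => t ^ n) ha, integral_pow]
    simp [ha]; ring
  rcases lt_or_gt_of_ne ha with h | h
  · rw [uIcc_of_ge h.le, integral_Icc_eq_integral_Ioc, ← intervalIntegral.integral_of_le h.le,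
      intervalIntegral.integral_symm, hI, abs_of_neg h]
    ring
  · rw [uIcc_of_le h.le, integral_Icc_eq_integral_Ioc, ← intervalIntegral.integral_of_le h.le, hI,
      abs_of_pos h]

theorem slice_subset {K : Set (Fin (n + 1) → ℝ)} (hK : Convex ℝ K) {s : Fin (n + 1) → Bool}
    {x : Fin (n + 1) → ℝ} (hx : x ∈ K) (hxs : x ∈ orthant s) {i : Fin (n + 1)} {l : ℝ}
    (hl : l ∈ Icc (0 : ℝ) 1) {f : Fin n → ℝ}
    (hf : f ∈ sec K i ∩ orthant (s ∘ i.succAbove)) :
    ins i (l * x i) ((1 - l) • f + l • fun m => x (i.succAbove m)) ∈ cone K s x i := by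
  set z := ins i (l * x i) ((1 - l) • f + l • fun m => x (i.succAbove m)) with hz
  have ez : z = (1 - l) • ins i 0 f + l • x := by
    ext j
    rcases Fin.eq_self_or_eq_succAbove i j with rfl | ⟨m, rfl⟩ <;> simp [hz]
  have h1l : 0 ≤ 1 - l := sub_nonneg.2 hl.2
  have hfs : ins i 0 f ∈ orthant s := by
    intro j
    rcases Fin.eq_self_or_eq_succAbove i j with rfl | ⟨m, rfl⟩
    · simp
    · simpa using hf.2 m
  have hzs : z ∈ orthant s := by
    intro j
    have h1 := hfs j
    have h2 := hxs j
    rw [ez]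
    by_cases hs : s j <;>
      simp only [hs, if_true, if_false, Bool.false_eq_true, Pi.add_apply, Pi.smul_apply,
        smul_eq_mul] at h1 h2 ⊢ <;>
      nlinarith [mul_nonneg h1l h1, mul_nonneg hl.1 h2]
  have hKz : z ∈ K := by
    rw [ez]
    exact hK hf.1 hx h1l hl.1 (by ring)
  refine ⟨⟨hKz, hzs⟩, fun j => ?_⟩
  have habs : ∀ {w : Fin (n + 1) → ℝ}, w ∈ orthant s →
      ∀ j, |w j| = if s j then w j else -w j := fun {w} hw j => by
    have h := hw j
    by_cases hs : s j
    · simp only [hs, if_true] at h ⊢; exact abs_of_nonneg h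
    · simp only [hs, if_false, Bool.false_eq_true] at h ⊢
      exact abs_of_nonpos (by linarith)
  have hzj : l * |x j| ≤ |z j| := by
    have h1 := hfs j
    rw [habs hzs j, habs hxs j, ez]
    by_cases hs : s j <;>
      simp only [hs, if_true, if_false, Bool.false_eq_true, Pi.add_apply, Pi.smul_apply,
        smul_eq_mul] at h1 ⊢ <;>
      nlinarith [mul_nonneg h1l h1]
  have hzi : z i = l * x i := by simp [hz]
  rw [hzi, abs_mul, abs_of_nonneg hl.1]
  nlinarith [mul_le_mul_of_nonneg_left hzj (abs_nonneg (x i))]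

/-- The volume of each cone. -/
theorem le_volume_cone {K : Set (Fin (n + 1) → ℝ)} (hKm : MeasurableSet K) (hK : Convex ℝ K)
    {s : Fin (n + 1) → Bool} {x : Fin (n + 1) → ℝ} (hx : x ∈ K) (hxs : x ∈ orthant s)
    {i : Fin (n + 1)} (hxi : x i ≠ 0) :
    ENNReal.ofReal (|x i| / (n + 1)) * volume (sec K i ∩ orthant (s ∘ i.succAbove)) ≤
      volume (cone K s x i) := by
  set F := sec K i ∩ orthant (s ∘ i.succAbove)
  have hC := measurableSet_cone hKm s x i
  have hmp := (volume_preserving_piFinSuccAbove (fun _ : Fin (n + 1) => ℝ) i).symm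
  rw [← hmp.measure_preimage hC.nullMeasurableSet, Measure.volume_eq_prod,
    Measure.prod_apply (hmp.measurable hC), ← lintegral_pow hxi n]
  rw [← lintegral_mul_const _ (by fun_prop)]
  refine le_trans (setLIntegral_mono' measurableSet_uIcc fun t ht => ?_)
    (setLIntegral_le_lintegral _ _)
  set l := t / x i with hl
  have hl01 : l ∈ Icc (0 : ℝ) 1 := by
    rcases lt_or_gt_of_ne hxi with h | h
    · rw [uIcc_of_ge h.le] at ht
      exact ⟨div_nonneg_of_nonpos ht.2 h.le, (div_le_one_of_neg h).2 ht.1⟩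
    · rw [uIcc_of_le h.le] at ht
      exact ⟨div_nonneg ht.1 h.le, (div_le_one h).2 ht.2⟩
  have htl : t = l * x i := (div_mul_cancel₀ t hxi).symm
  calc ENNReal.ofReal ((1 - l) ^ n) * volume F
      = volume ((fun f => (l • fun m => x (i.succAbove m)) + f) '' ((1 - l) • F)) := by
        rw [Set.image_add_left, measure_preimage_add,
          Measure.addHaar_smul_of_nonneg _ (sub_nonneg.2 hl01.2), Module.finrank_pi,
          Fintype.card_fin]
    _ ≤ _ := measure_mono ?_
  rintro _ ⟨_, ⟨f, hf, rfl⟩, rfl⟩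
  have h := slice_subset hK hx hxs hl01 hf
  rw [← htl] at h
  simpa [ins, add_comm, Fin.insertNthEquiv] using h

theorem cone_overlap {K : Set (Fin (n + 1) → ℝ)} {s : Fin (n + 1) → Bool}
    {x : Fin (n + 1) → ℝ} (hxs : x ∈ orthant s) {i k : Fin (n + 1)} (hik : i ≠ k)
    (hxk : x k ≠ 0) : AEDisjoint volume (cone K s x i) (cone K s x k) := by
  let L : (Fin (n + 1) → ℝ) →ₗ[ℝ] ℝ := x k • LinearMap.proj i - x i • LinearMap.proj k
  refine measure_mono_null (fun z hz => ?_)
    (Measure.addHaar_submodule volume (LinearMap.ker L) ?_)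
  · have h1 := hz.1.2 k
    have h2 := hz.2.2 i
    have hz1 := hz.1.1.2
    have heq : |x k| * |z i| = |x i| * |z k| := le_antisymm h1 h2
    have a := hxs i
    have b := hxs k
    have c := hz1 i
    have d := hz1 k
    show L z = 0
    simp only [L, LinearMap.sub_apply, LinearMap.smul_apply, LinearMap.proj_apply, smul_eq_mul]
    by_cases hi : s i <;> by_cases hk : s k <;>
      simp only [hi, hk, if_true, if_false, Bool.false_eq_true, neg_nonneg] at a b c d <;>
      simp only [abs_of_nonneg, abs_of_nonpos, a, b, c, d] at heq <;> linarith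
  · intro h
    have h2 : (Pi.single i (1 : ℝ) : Fin (n + 1) → ℝ) ∈ LinearMap.ker L := h ▸ Submodule.mem_top
    simp [L, Pi.single_eq_of_ne hik.symm] at h2
    exact hxk h2

/-- The cones fit into the orthant piece. -/
theorem sum_faces_le {K : Set (Fin (n + 1) → ℝ)} (hKm : MeasurableSet K) (hK : Convex ℝ K)
    {s : Fin (n + 1) → Bool} {x : Fin (n + 1) → ℝ} (hx : x ∈ K) (hxs : x ∈ orthant s) :
    ∑ i, ENNReal.ofReal (|x i| / (n + 1)) * volume (sec K i ∩ orthant (s ∘ i.succAbove)) ≤
      volume (K ∩ orthant s) := by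
  classical
  set P := Finset.univ.filter fun i => x i ≠ 0
  rw [← Finset.sum_filter_of_ne (p := fun i => x i ≠ 0) fun i _ h hi => h (by simp [hi])]
  refine (Finset.sum_le_sum fun i hi =>
    le_volume_cone hKm hK hx hxs (Finset.mem_filter.1 hi).2).trans ?_
  rw [← measure_biUnion_finset₀ ?_ fun i _ => (measurableSet_cone hKm s x i).nullMeasurableSet]
  · exact measure_mono (iUnion₂_subset fun i _ => inter_subset_left)
  · intro i _ k hk hik
    exact cone_overlap hxs hik (Finset.mem_filter.1 hk).2

/-- All orthants take equal parts of `K` and of each section by a coordinate hyperplane. -/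
structure Split (K : Set (Fin (n + 1) → ℝ)) : Prop where
  body : ∀ s, 2 ^ (n + 1) * volume (K ∩ orthant s) = volume K
  faces : ∀ i s, 2 ^ n * volume (Balanced.sec K i ∩ orthant s) = volume (Balanced.sec K i)

theorem Equipartite.split {K : Set (Fin (n + 1) → ℝ)} (hE : Equipartite K) (hS : SymBody K) :
    Split K :=
  ⟨hE.orthant_eq hS.compact.measurableSet,
    fun i => (hE.sec i).orthant_eq (hS.sec i).compact.measurableSet⟩

/-- In a split body the sections control the coordinates. -/
theorem Split.sum_le {K : Set (Fin (n + 1) → ℝ)} (hE : Split K) (hS : SymBody K)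
    {x : Fin (n + 1) → ℝ} (hx : x ∈ K) :
    ∑ i, |x i| * volume.real (Balanced.sec K i) ≤ (n + 1) / 2 * volume.real K := by
  set s : Fin (n + 1) → Bool := fun j => decide (0 ≤ x j)
  have hxs : x ∈ orthant s := fun j => by
    by_cases h : 0 ≤ x j
    · simp [s, h]
    · simp [s, h]; linarith
  have hKm := hS.compact.measurableSet
  have hfin : volume K ≠ ⊤ := hS.compact.measure_lt_top.ne
  have hfi : ∀ i, volume (Balanced.sec K i ∩ orthant (s ∘ i.succAbove)) ≠ ⊤ := fun i =>
    ne_top_of_le_ne_top (hS.sec i).compact.measure_lt_top.ne (measure_mono inter_subset_left)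
  have h := ENNReal.toReal_mono (ne_top_of_le_ne_top hfin (measure_mono inter_subset_left))
    (sum_faces_le hKm hS.convex hx hxs)
  rw [ENNReal.toReal_sum fun i _ => ENNReal.mul_ne_top ENNReal.ofReal_ne_top (hfi i)] at h
  have hV : 2 ^ (n + 1) * (volume (K ∩ orthant s)).toReal = volume.real K := by
    rw [Measure.real, ← hE.body s, ENNReal.toReal_mul, ENNReal.toReal_pow]
    simp
  have hVi : ∀ i, 2 ^ n * (volume (Balanced.sec K i ∩ orthant (s ∘ i.succAbove))).toReal =
      volume.real (Balanced.sec K i) := fun i => by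
    rw [Measure.real, ← hE.faces i (s ∘ i.succAbove),
      ENNReal.toReal_mul, ENNReal.toReal_pow]
    simp
  simp only [ENNReal.toReal_mul, ENNReal.toReal_ofReal
    (div_nonneg (abs_nonneg _) (by positivity : (0 : ℝ) ≤ n + 1))] at h
  have key : ∑ i, |x i| * volume.real (Balanced.sec K i) =
      (n + 1) * 2 ^ n * ∑ i, |x i| / (n + 1) *
        (volume (Balanced.sec K i ∩ orthant (s ∘ i.succAbove))).toReal := by
    rw [Finset.mul_sum]
    refine Finset.sum_congr rfl fun i _ => ?_
    rw [← hVi i]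
    field_simp
  rw [key, ← hV]
  calc _ ≤ (n + 1 : ℝ) * 2 ^ n * (volume (K ∩ orthant s)).toReal :=
        mul_le_mul_of_nonneg_left h (by positivity)
    _ = _ := by ring

end Vale.Agent.P248.Balanced
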