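import Mathlib

/-!
# Bodies with equipartitioned coordinate sections: definitions
-/

open MeasureTheory
open scoped ENNReal

noncomputable section

namespace Vale.Agent.P248.Balanced

/-- An origin-symmetric convex body in `ℝⁿ`. -/
structure SymBody {n : ℕ} (K : Set (Fin n → ℝ)) : Prop where
  compact : IsCompact K
  convex : Convex ℝ K
  interior_nonempty : (interior K).Nonempty
  neg_mem : ∀ x ∈ K, -x ∈ K

/-- The polar body for the Euclidean inner product. -/
def polar {n : ℕ} (K : Set (Fin n → ℝ)) : Set (Fin n → ℝ) :=
  {y | ∀ x ∈ K, ∑ i, x i * y i ≤ 1}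

/-- The section of `K` by the coordinate subspace of the chosen coordinates. -/
def coordSection {n k : ℕ} (K : Set (Fin n → ℝ)) (e : Fin k ↪ Fin n) : Set (Fin k → ℝ) :=
  {z | Function.extend e z 0 ∈ K}

/-- The closed orthant with the given signs (`true` is nonnegative). -/
def orthant {n : ℕ} (s : Fin n → Bool) : Set (Fin n → ℝ) :=
  {x | ∀ i, 0 ≤ if s i then x i else -x i}

/-- In every coordinate section all orthants cut equal volumes. -/
def Equipartite {n : ℕ} (K : Set (Fin n → ℝ)) : Prop :=
  ∀ (k : ℕ) (e : Fin k ↪ Fin n) (s t : Fin k → Bool),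
    volume (coordSection K e ∩ orthant s) = volume (coordSection K e ∩ orthant t)

/-- The turn by a right angle in the plane of the coordinates `i`, `τ i`; it flips the sign of
coordinate `i` when `τ i = i`. -/
def quarterTurn {n : ℕ} (τ : Fin n → Fin n) (i : Fin n) (x : Fin n → ℝ) : Fin n → ℝ :=
  fun j => if j = i then -x (τ i) else if j = τ i then x i else x j

end Vale.Agent.P248.Balanced
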