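import Vale.Agent.P248.Balanced.Sections

/-!
# Two lines in a coordinate plane splitting two symmetric bodies into equal quarters
-/

open MeasureTheory Set Filter
open scoped Topology Real

noncomputable section

namespace Vale.Agent.P248.Balanced

variable {n : ℕ}

/-- The linear form vanishing on the direction `θ` of the plane of the coordinates `a`, `b`. -/
def lineForm (a b : Fin n) (θ : ℝ) (z : Fin n → ℝ) : ℝ := Real.cos θ * z b - Real.sin θ * z a

/-- Volume of the part of `A` where both forms are nonnegative. -/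
def quad (A : Set (Fin n → ℝ)) (a b : Fin n) (θ φ : ℝ) : ℝ :=
  volume.real (A ∩ {z | 0 ≤ lineForm a b θ z ∧ 0 ≤ lineForm a b φ z})

theorem lineForm_add_pi (a b : Fin n) (θ : ℝ) (z : Fin n → ℝ) :
    lineForm a b (θ + π) z = -lineForm a b θ z := by
  simp [lineForm]; ring

theorem lineForm_neg (a b : Fin n) (θ : ℝ) (z : Fin n → ℝ) :
    lineForm a b θ (-z) = -lineForm a b θ z := by simp [lineForm]; ring

theorem continuous_lineForm (a b : Fin n) (z : Fin n → ℝ) :
    Continuous fun θ => lineForm a b θ z := by unfold lineForm; fun_prop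

theorem continuous_lineForm' (a b : Fin n) (θ : ℝ) : Continuous (lineForm a b θ) := by
  unfold lineForm; fun_prop

theorem quad_comm (A : Set (Fin n → ℝ)) (a b : Fin n) (θ φ : ℝ) :
    quad A a b θ φ = quad A a b φ θ := by simp only [quad, and_comm]

theorem null_lineForm {a b : Fin n} (hab : a ≠ b) (θ : ℝ) :
    volume {z : Fin n → ℝ | lineForm a b θ z = 0} = 0 := by
  let L : (Fin n → ℝ) →ₗ[ℝ] ℝ := Real.cos θ • LinearMap.proj b - Real.sin θ • LinearMap.proj a
  have e : {z : Fin n → ℝ | lineForm a b θ z = 0} = LinearMap.ker L := by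
    ext z; simp [L, lineForm]
  rw [e]
  refine Measure.addHaar_submodule volume _ fun h => ?_
  have h1 : (Pi.single b (1 : ℝ) : Fin n → ℝ) ∈ LinearMap.ker L := h ▸ Submodule.mem_top
  have h2 : (Pi.single a (1 : ℝ) : Fin n → ℝ) ∈ LinearMap.ker L := h ▸ Submodule.mem_top
  simp [L, Pi.single_eq_of_ne hab] at h1
  simp [L, Pi.single_eq_of_ne hab.symm] at h2
  simpa [h1, h2] using Real.sin_sq_add_cos_sq θ

variable {A : Set (Fin n → ℝ)} (hA : SymBody A) {a b : Fin n} (hab : a ≠ b)
include hA hab

theorem continuous_quad : Continuous fun q : ℝ × ℝ => quad A a b q.1 q.2 := by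
  rw [continuous_iff_continuousAt]
  intro q
  set S := fun r : ℝ × ℝ => {z : Fin n → ℝ | 0 ≤ lineForm a b r.1 z ∧ 0 ≤ lineForm a b r.2 z}
  have hS : ∀ r, MeasurableSet (S r) := fun r =>
    ((isClosed_le continuous_const (continuous_lineForm' a b r.1)).inter
      (isClosed_le continuous_const (continuous_lineForm' a b r.2))).measurableSet
  have he : (fun r : ℝ × ℝ => quad A a b r.1 r.2) =
      fun r => ∫ z in A, (S r).indicator (fun _ => (1 : ℝ)) z := by
    funext r
    rw [setIntegral_indicator (hS r)]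
    simp [quad, S]
  rw [he]
  haveI : IsFiniteMeasure (volume.restrict A) :=
    isFiniteMeasure_restrict.2 hA.compact.measure_lt_top.ne
  refine continuousAt_of_dominated (bound := fun _ => (1 : ℝ))
    (Eventually.of_forall fun r => (measurable_const.indicator (hS r)).aestronglyMeasurable)
    (Eventually.of_forall fun r => Eventually.of_forall fun z => ?_) (integrable_const _) ?_
  · rw [Real.norm_eq_abs]
    by_cases h : z ∈ S r <;> simp [h]
  · have h1 := ae_restrict_of_ae (s := A)
      (compl_mem_ae_iff.2 (null_lineForm hab q.1) : ∀ᵐ z : Fin n → ℝ, lineForm a b q.1 z ≠ 0)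
    have h2 := ae_restrict_of_ae (s := A)
      (compl_mem_ae_iff.2 (null_lineForm hab q.2) : ∀ᵐ z : Fin n → ℝ, lineForm a b q.2 z ≠ 0)
    filter_upwards [h1, h2] with z hz1 hz2
    have ev : ∀ (g : ℝ × ℝ → ℝ), Continuous g → g q ≠ 0 → ∀ᶠ r in 𝓝 q, (0 ≤ g r ↔ 0 ≤ g q) := by
      intro g hg hne
      rcases lt_or_gt_of_ne hne with h | h
      · filter_upwards [hg.continuousAt.eventually (gt_mem_nhds h)] with r hr
        simp [not_le.2 hr, not_le.2 h]
      · filter_upwards [hg.continuousAt.eventually (lt_mem_nhds h)] with r hr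
        simp [hr.le, h.le]
    have e1 := ev (fun r => lineForm a b r.1 z) ((continuous_lineForm a b z).comp continuous_fst) hz1
    have e2 := ev (fun r => lineForm a b r.2 z) ((continuous_lineForm a b z).comp continuous_snd) hz2
    refine ContinuousAt.congr (f := fun _ => (S q).indicator (fun _ => (1 : ℝ)) z) continuousAt_const ?_
    filter_upwards [e1, e2] with r h1 h2
    have : z ∈ S r ↔ z ∈ S q := and_congr h1 h2
    by_cases h : z ∈ S q <;> simp [h, this]

theorem half_volume (θ : ℝ) :
    volume.real (A ∩ {z | 0 ≤ lineForm a b θ z}) = volume.real A / 2 := by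
  set P := {z : Fin n → ℝ | 0 ≤ lineForm a b θ z}
  set N := {z : Fin n → ℝ | lineForm a b θ z ≤ 0}
  have hfin : ∀ T : Set (Fin n → ℝ), volume (A ∩ T) ≠ ⊤ := fun T =>
    ne_top_of_le_ne_top hA.compact.measure_lt_top.ne (measure_mono inter_subset_left)
  have hN : volume.real (A ∩ N) = volume.real (A ∩ P) := by
    have e : (fun z => -z) ⁻¹' (A ∩ P) = A ∩ N := by
      ext z
      simp only [mem_preimage, mem_inter_iff, P, N, mem_setOf_eq, lineForm_neg, neg_nonneg]
      exact and_congr_left fun _ => ⟨fun h => neg_neg z ▸ hA.neg_mem _ h, hA.neg_mem z⟩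
    rw [← e, Measure.real, Measure.real,
      (Measure.measurePreserving_neg (volume : Measure (Fin n → ℝ))).measure_preimage
        ((hA.compact.measurableSet.inter
          (isClosed_le continuous_const (continuous_lineForm' a b θ)).measurableSet).nullMeasurableSet)]
  have hsum := measureReal_union₀ (μ := volume)
    ((hA.compact.measurableSet.inter
      (isClosed_le (continuous_lineForm' a b θ) continuous_const).measurableSet).nullMeasurableSet)
    (measure_mono_null (fun z hz => le_antisymm hz.2.2 hz.1.2) (null_lineForm hab θ) :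
      AEDisjoint volume (A ∩ P) (A ∩ N)) (hfin P) (hfin N)
  have hcov : A ∩ P ∪ A ∩ N = A := by
    ext z
    simp only [P, N, mem_union, mem_inter_iff, mem_setOf_eq, ← and_or_left, and_iff_left_iff_imp]
    exact fun _ => le_total _ _
  rw [hcov, hN] at hsum
  linarith

theorem quad_self (θ : ℝ) : quad A a b θ θ = volume.real A / 2 := by
  rw [← half_volume hA hab θ]; simp [quad]

theorem quad_add_pi (θ : ℝ) : quad A a b θ (θ + π) = 0 := by
  refine measureReal_eq_zero_iff
    (ne_top_of_le_ne_top hA.compact.measure_lt_top.ne (measure_mono inter_subset_left)) |>.2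
    (measure_mono_null (fun z hz => ?_) (null_lineForm hab θ))
  have h := hz.2.2
  rw [lineForm_add_pi] at h
  exact le_antisymm (by linarith) hz.2.1

theorem quad_swap (θ φ : ℝ) :
    quad A a b φ (θ + π) = volume.real A / 2 - quad A a b θ φ := by
  have hfin : ∀ T : Set (Fin n → ℝ), volume (A ∩ T) ≠ ⊤ := fun T =>
    ne_top_of_le_ne_top hA.compact.measure_lt_top.ne (measure_mono inter_subset_left)
  have hm : ∀ ψ χ : ℝ, MeasurableSet
      (A ∩ {z : Fin n → ℝ | 0 ≤ lineForm a b ψ z ∧ 0 ≤ lineForm a b χ z}) := fun ψ χ =>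
    hA.compact.measurableSet.inter
      ((isClosed_le continuous_const (continuous_lineForm' a b ψ)).inter
        (isClosed_le continuous_const (continuous_lineForm' a b χ))).measurableSet
  have hsum := measureReal_union₀ (μ := volume) (hm φ (θ + π)).nullMeasurableSet
    (measure_mono_null (fun z hz => by
      have h := hz.2.2.2
      rw [lineForm_add_pi] at h
      exact le_antisymm (by linarith) hz.1.2.1) (null_lineForm hab θ) :
        AEDisjoint volume (A ∩ {z | 0 ≤ lineForm a b θ z ∧ 0 ≤ lineForm a b φ z})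
          (A ∩ {z | 0 ≤ lineForm a b φ z ∧ 0 ≤ lineForm a b (θ + π) z})) (hfin _) (hfin _)
  have hcov : A ∩ {z | 0 ≤ lineForm a b θ z ∧ 0 ≤ lineForm a b φ z} ∪
      A ∩ {z | 0 ≤ lineForm a b φ z ∧ 0 ≤ lineForm a b (θ + π) z} =
        A ∩ {z | 0 ≤ lineForm a b φ z} := by
    ext z
    simp only [mem_union, mem_inter_iff, mem_setOf_eq, lineForm_add_pi, neg_nonneg]
    constructor
    · rintro (h | h)
      exacts [⟨h.1, h.2.2⟩, ⟨h.1, h.2.1⟩]
    · intro h
      rcases le_total 0 (lineForm a b θ z) with h' | h'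
      exacts [Or.inl ⟨h.1, h', h.2⟩, Or.inr ⟨h.1, h.2, h'⟩]
  rw [hcov, half_volume hA hab φ] at hsum
  simp only [quad] at *
  linarith

theorem quad_strictAnti (θ : ℝ) : StrictAntiOn (quad A a b θ) (Icc θ (θ + π)) := by
  intro φ hφ φ' hφ' hlt
  set S := fun ψ => A ∩ {z : Fin n → ℝ | 0 ≤ lineForm a b θ z ∧ 0 ≤ lineForm a b ψ z}
  have hfin : ∀ ψ, volume (S ψ) ≠ ⊤ := fun ψ =>
    ne_top_of_le_ne_top hA.compact.measure_lt_top.ne (measure_mono inter_subset_left)
  -- the gained wedge
  set W := interior A ∩ {z : Fin n → ℝ |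
    0 < lineForm a b θ z ∧ 0 < lineForm a b φ z ∧ lineForm a b φ' z < 0}
  obtain ⟨r, hr, hball⟩ := Metric.isOpen_iff.1 isOpen_interior 0 hA.zero_mem_interior
  set ψ := (φ + φ') / 2
  set z0 : Fin n → ℝ := Pi.single a (r / 4 * Real.cos ψ) + Pi.single b (r / 4 * Real.sin ψ)
  have hz : ∀ χ, lineForm a b χ z0 = r / 4 * Real.sin (ψ - χ) := fun χ => by
    simp [z0, lineForm, Pi.single_eq_of_ne hab, Pi.single_eq_of_ne hab.symm, Real.sin_sub]; ring
  have hz0 : z0 ∈ W := by
    refine ⟨hball ?_, ?_, ?_, ?_⟩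
    · rw [mem_ball_zero_iff]
      refine (norm_add_le _ _).trans_lt ?_
      rw [Pi.norm_single, Pi.norm_single, Real.norm_eq_abs, Real.norm_eq_abs, abs_mul, abs_mul,
        abs_of_pos (by linarith : 0 < r / 4)]
      nlinarith [Real.abs_cos_le_one ψ, Real.abs_sin_le_one ψ]
    · rw [hz]
      exact mul_pos (by linarith) (Real.sin_pos_of_pos_of_lt_pi
        (by simp only [ψ]; linarith [hφ.1]) (by simp only [ψ]; linarith [hφ'.2]))
    · rw [hz]
      exact mul_pos (by linarith) (Real.sin_pos_of_pos_of_lt_pi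
        (by simp only [ψ]; linarith) (by simp only [ψ]; linarith [hφ.1, hφ'.2]))
    · rw [hz]
      refine mul_neg_of_pos_of_neg (by linarith) (Real.sin_neg_of_neg_of_neg_pi_lt
        (by simp only [ψ]; linarith) (by simp only [ψ]; linarith [hφ.1, hφ'.2]))
  have hWo : IsOpen W := by
    refine isOpen_interior.inter ?_
    exact (isOpen_lt continuous_const (continuous_lineForm' a b θ)).inter
      ((isOpen_lt continuous_const (continuous_lineForm' a b φ)).inter
        (isOpen_lt (continuous_lineForm' a b φ') continuous_const))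
  have hWpos : 0 < volume W := hWo.measure_pos volume ⟨z0, hz0⟩
  have hWS : W ⊆ S φ := fun z hz => ⟨interior_subset hz.1, hz.2.1.le, hz.2.2.1.le⟩
  rcases hφ'.2.eq_or_lt with he | hlt'
  · rw [he, quad_add_pi hA hab]
    exact ENNReal.toReal_pos (hWpos.trans_le (measure_mono hWS)).ne' (hfin φ)
  -- nested wedges
  have hsub : S φ' ⊆ S φ := by
    rintro z ⟨hzA, h1, h2⟩
    refine ⟨hzA, h1, ?_⟩
    have hid : Real.sin (φ' - θ) * lineForm a b φ z =
        Real.sin (φ' - φ) * lineForm a b θ z + Real.sin (φ - θ) * lineForm a b φ' z := by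
      simp only [lineForm, Real.sin_sub]
      have := Real.sin_sq_add_cos_sq φ
      ring_nf
    have hp : 0 < Real.sin (φ' - θ) :=
      Real.sin_pos_of_pos_of_lt_pi (by linarith [hφ.1]) (by linarith)
    have h0 : 0 ≤ Real.sin (φ' - θ) * lineForm a b φ z := by
      rw [hid]
      exact add_nonneg
        (mul_nonneg (Real.sin_nonneg_of_nonneg_of_le_pi (by linarith) (by linarith [hφ.1])) h1)
        (mul_nonneg (Real.sin_nonneg_of_nonneg_of_le_pi (by linarith [hφ.1]) (by linarith)) h2)
    exact nonneg_of_mul_nonneg_right h0 hp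
  have hWd : Disjoint (S φ') W := Set.disjoint_left.2 fun z hz hzW =>
    absurd hz.2.2 (not_le.2 hzW.2.2.2)
  have hWfin : volume W ≠ ⊤ := ne_top_of_le_ne_top (hfin φ) (measure_mono hWS)
  calc quad A a b θ φ' = volume.real (S φ') := rfl
    _ < volume.real (S φ') + volume.real W :=
        lt_add_of_pos_right _ (ENNReal.toReal_pos hWpos.ne' hWfin)
    _ = volume.real (S φ' ∪ W) :=
        (measureReal_union hWd hWo.measurableSet (hfin φ') hWfin).symm
    _ ≤ volume.real (S φ) := measureReal_mono (union_subset hsub hWS) (hfin φ)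

theorem continuous_quad_right (θ : ℝ) : Continuous (fun ψ => quad A a b θ ψ) := by
  have h := (continuous_quad hA hab).comp
    (continuous_const.prodMk continuous_id : Continuous fun ψ : ℝ => (θ, ψ))
  simpa only [Function.comp_def] using h

theorem continuous_quad_left (ψ : ℝ) : Continuous (fun t => quad A a b t ψ) := by
  simpa only [quad_comm A a b _ ψ] using continuous_quad_right hA hab ψ

theorem volume_real_pos : 0 < volume.real A :=
  ENNReal.toReal_pos
    (isOpen_interior.measure_pos volume hA.interior_nonempty |>.trans_le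
      (measure_mono interior_subset)).ne' hA.compact.measure_lt_top.ne

/-- The unique second line moves continuously. -/
theorem continuous_of_quad_eq {Φ : ℝ → ℝ} (hΦ : ∀ θ, Φ θ ∈ Ioo θ (θ + π))
    (hΦq : ∀ θ, quad A a b θ (Φ θ) = volume.real A / 4) : Continuous Φ := by
  rw [continuous_iff_continuousAt]
  intro θ
  rw [Metric.continuousAt_iff']
  intro ε hε
  set δ := min (ε / 2) (min ((Φ θ - θ) / 2) ((θ + π - Φ θ) / 2))
  have h1 := (hΦ θ).1
  have h2 := (hΦ θ).2
  have hδ : 0 < δ := lt_min (by linarith) (lt_min (by linarith) (by linarith))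
  have hd1 : δ ≤ (Φ θ - θ) / 2 := (min_le_right _ _).trans (min_le_left _ _)
  have hd2 : δ ≤ (θ + π - Φ θ) / 2 := (min_le_right _ _).trans (min_le_right _ _)
  have ml : Φ θ - δ ∈ Icc θ (θ + π) := ⟨by linarith, by linarith⟩
  have mr : Φ θ + δ ∈ Icc θ (θ + π) := ⟨by linarith, by linarith⟩
  have mm : Φ θ ∈ Icc θ (θ + π) := ⟨h1.le, h2.le⟩
  have hl := quad_strictAnti hA hab θ ml mm (by linarith)
  have hr := quad_strictAnti hA hab θ mm mr (by linarith)
  rw [hΦq θ] at hl hr
  have cl := continuous_quad_left hA hab (Φ θ - δ)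
  have cr := continuous_quad_left hA hab (Φ θ + δ)
  filter_upwards [cl.continuousAt.eventually (lt_mem_nhds hl),
    cr.continuousAt.eventually (gt_mem_nhds hr), Metric.ball_mem_nhds θ hδ] with t tl tr ht
  rw [Metric.mem_ball, Real.dist_eq, abs_lt] at ht
  have m1 : Φ θ - δ ∈ Icc t (t + π) := ⟨by linarith, by linarith⟩
  have m2 : Φ θ + δ ∈ Icc t (t + π) := ⟨by linarith, by linarith⟩
  have mt : Φ t ∈ Icc t (t + π) := Ioo_subset_Icc_self (hΦ t)
  have a1 : Φ θ - δ < Φ t := by
    by_contra hc'
    have := (quad_strictAnti hA hab t).antitoneOn mt m1 (not_lt.1 hc')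
    rw [hΦq t] at this
    linarith
  have a2 : Φ t < Φ θ + δ := by
    by_contra hc'
    have := (quad_strictAnti hA hab t).antitoneOn m2 mt (not_lt.1 hc')
    rw [hΦq t] at this
    linarith
  rw [Real.dist_eq, abs_lt]
  have : δ ≤ ε / 2 := min_le_left _ _
  constructor <;> linarith

/-- A continuous choice of the second line. -/
theorem exists_second_line : ∃ Φ : ℝ → ℝ, Continuous Φ ∧
    ∀ θ, Φ θ ∈ Ioo θ (θ + π) ∧ quad A a b θ (Φ θ) = volume.real A / 4 := by
  have hV := volume_real_pos hA hab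
  have hc : ∀ θ, Continuous fun ψ => quad A a b θ ψ := fun θ => continuous_quad_right hA hab θ
  have hex : ∀ θ, ∃ ψ ∈ Ioo θ (θ + π), quad A a b θ ψ = volume.real A / 4 := fun θ => by
    have h := intermediate_value_Ioo' (show θ ≤ θ + π by linarith [Real.pi_pos]) (hc θ).continuousOn
      (show volume.real A / 4 ∈ Ioo (quad A a b θ (θ + π)) (quad A a b θ θ) by
        rw [quad_self hA hab, quad_add_pi hA hab]; constructor <;> linarith)
    exact h
  choose Φ hΦ hΦq using hex
  exact ⟨Φ, continuous_of_quad_eq hA hab hΦ hΦq, fun θ => ⟨hΦ θ, hΦq θ⟩⟩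

omit hA hab in
/-- Two lines quartering two symmetric bodies at once. -/
theorem exists_split {m : ℕ} {A : Set (Fin n → ℝ)} {B : Set (Fin m → ℝ)} (hA : SymBody A)
    (hB : SymBody B) {a b : Fin n} (hab : a ≠ b) {a' b' : Fin m} (hab' : a' ≠ b') :
    ∃ θ φ, Real.sin (φ - θ) ≠ 0 ∧ quad A a b θ φ = volume.real A / 4 ∧
      quad B a' b' θ φ = volume.real B / 4 := by
  obtain ⟨Φ, hΦc, hΦ⟩ := exists_second_line hA hab
  set g := fun θ => quad B a' b' θ (Φ θ) - volume.real B / 4 with hg
  have hgc : Continuous g :=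
    (((continuous_quad hB hab').comp (continuous_id.prodMk hΦc)).sub continuous_const)
  have hturn : g (Φ 0) = -g 0 := by
    obtain ⟨hm, hq⟩ := hΦ 0
    obtain ⟨hm', hq'⟩ := hΦ (Φ 0)
    have e : Φ (Φ 0) = 0 + π := by
      have hmem : (0 : ℝ) + π ∈ Icc (Φ 0) (Φ 0 + π) := ⟨hm.2.le, by linarith [hm.1]⟩
      refine (quad_strictAnti hA hab (Φ 0)).injOn (Ioo_subset_Icc_self hm') hmem ?_
      rw [hq', quad_swap hA hab, hq]; ring
    simp only [hg]
    rw [e, quad_swap hB hab']
    ring
  have h0 : (0 : ℝ) ∈ uIcc (g 0) (g (Φ 0)) := by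
    rw [hturn, mem_uIcc]
    rcases le_total (g 0) 0 with h | h
    · exact Or.inl ⟨h, neg_nonneg.2 h⟩
    · exact Or.inr ⟨neg_nonpos.2 h, h⟩
  obtain ⟨θ, _, hθ⟩ := intermediate_value_uIcc hgc.continuousOn h0
  obtain ⟨hm, hq⟩ := hΦ θ
  refine ⟨θ, Φ θ, (Real.sin_pos_of_pos_of_lt_pi (by linarith [hm.1]) (by linarith [hm.2])).ne', hq, ?_⟩
  simp only [hg] at hθ
  linarith

end Vale.Agent.P248.Balanced
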