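import Vale.Agent.P248.Balanced.Sections

/-!
# Quarter turns equipartition every coordinate section
-/

open MeasureTheory Set

noncomputable section

namespace Vale.Agent.P248.Balanced

variable {n k : ℕ}

/-- Reverse the sign pattern at `a`. -/
def flipAt (s : Fin k → Bool) (a : Fin k) : Fin k → Bool := Function.update s a (!s a)

theorem flipAt_flipAt (s : Fin k → Bool) (a : Fin k) : flipAt (flipAt s a) a = s := by
  simp [flipAt]

theorem measurePreserving_quarterTurn (σ : Equiv.Perm (Fin k)) {a : Fin k}
    (hσ : σ = Equiv.swap a (σ a)) :
    MeasurePreserving (quarterTurn (σ : Fin k → Fin k) a) volume volume := by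
  have h1 := (volume_measurePreserving_piCongrLeft (fun _ : Fin k => ℝ) σ)
  have h2 := (measurePreserving_flipFun (fun j => decide (j ≠ a))).comp h1
  convert h2 using 1
  funext x j
  have hs : σ.symm = σ := by rw [hσ, Equiv.symm_swap]
  have hx : MeasurableEquiv.piCongrLeft (fun _ : Fin k => ℝ) σ x j = x (σ j) := by
    conv_lhs => rw [← σ.apply_symm_apply j]
    rw [MeasurableEquiv.piCongrLeft_apply_apply, hs]
  simp only [Function.comp_apply, flipFun, hx, quarterTurn]
  rw [hσ]
  simp only [Equiv.swap_apply_left]
  by_cases h1 : j = a
  · subst h1; simp
  · by_cases h2 : j = σ a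
    · simp [h2, h1, show σ a ≠ a from h2 ▸ h1]
    · simp [h1, h2, Equiv.swap_apply_of_ne_of_ne h1 h2]

variable {K : Set (Fin n → ℝ)} {τ : Fin n → Fin n} (hτ : ∀ i, τ (τ i) = i)
  (hK : ∀ i, ∀ x ∈ K, quarterTurn τ i x ∈ K)
include hτ hK

/-- One sign flip is realised by a symmetry of the section. -/
theorem volume_le_flipAt (e : Fin k ↪ Fin n) (s : Fin k → Bool) (a : Fin k) :
    volume (coordSection K e ∩ orthant s) ≤ volume (coordSection K e ∩ orthant (flipAt s a)) := by
  have key : ∀ φ : (Fin k → ℝ) → (Fin k → ℝ), MeasurePreserving φ volume volume →
      (∀ z ∈ coordSection K e ∩ orthant s, φ z ∈ coordSection K e ∩ orthant (flipAt s a)) →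
      volume (coordSection K e ∩ orthant s) ≤ volume (coordSection K e ∩ orthant (flipAt s a)) :=
    fun φ hφ h => (measure_mono fun z hz => h z hz).trans (hφ.measure_preimage_le _)
  have hext : ∀ (z : Fin k → ℝ) m, Function.extend e z 0 (e m) = z m := fun z m =>
    e.injective.extend_apply z 0 m
  have hout : ∀ (z : Fin k → ℝ) j, (∀ m, e m ≠ j) → Function.extend e z 0 j = 0 := fun z j h =>
    Function.extend_apply' _ _ _ fun ⟨m, hm⟩ => h m hm
  by_cases hb : ∃ b, e b = τ (e a) ∧ b ≠ a
  · obtain ⟨b, hb, hba⟩ := hb
    have hτb : τ (e b) = e a := by rw [hb, hτ]
    have hne : e b ≠ e a := fun h => hba (e.injective h)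
    -- the turn of the section along `c`, `d`
    have turn : ∀ c d, e d = τ (e c) → c ≠ d → ∀ z ∈ coordSection K e,
        quarterTurn (Equiv.swap c d) c z ∈ coordSection K e := by
      intro c d hcd hne' z hz
      have h := hK (e c) _ hz
      show Function.extend e _ 0 ∈ K
      convert h using 1
      funext j
      by_cases hj : ∃ m, e m = j
      · obtain ⟨m, rfl⟩ := hj
        rw [hext]
        simp only [quarterTurn, Equiv.swap_apply_left, ← hcd, hext, e.injective.eq_iff]
      · push_neg at hj
        rw [hout _ j hj]
        simp only [quarterTurn, ← hcd]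
        rw [if_neg (fun h => hj c h.symm), if_neg (fun h => hj d h.symm), hout _ j hj]
    by_cases hs : s a = s b
    · refine key _ (measurePreserving_quarterTurn (Equiv.swap a b) (by simp))
        fun z hz => ⟨turn a b hb hba.symm z hz.1, fun j => ?_⟩
      have h1 := hz.2
      simp only [quarterTurn, Equiv.swap_apply_left, flipAt]
      by_cases ha : j = a
      · subst ha
        have := h1 b
        rw [← hs] at this
        cases hsa : s j <;> simp_all
      · by_cases hj : j = b
        · subst hj
          have := h1 a
          simp [Function.update_of_ne ha, ha, ← hs]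
          exact this
        · simpa [Function.update_of_ne ha, ha, hj] using h1 j
    · refine key _ (measurePreserving_quarterTurn (Equiv.swap b a) (by simp))
        fun z hz => ⟨turn b a hτb.symm hba z hz.1, fun j => ?_⟩
      have h1 := hz.2
      have hs' : s b = !s a := by cases h : s a <;> cases h' : s b <;> simp_all
      simp only [quarterTurn, Equiv.swap_apply_left, flipAt]
      by_cases hj : j = b
      · subst hj
        have := h1 a
        simp [Function.update_of_ne hba, hs']
        cases hsa : s a <;> simp_all
      · by_cases ha : j = a
        · subst ha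
          have := h1 b
          rw [hs'] at this
          simpa [hj] using this
        · simpa [Function.update_of_ne ha, ha, hj] using h1 j
  · push_neg at hb
    refine key _ (measurePreserving_flipFun (fun j => decide (j ≠ a))) fun z hz => ⟨?_, fun j => ?_⟩
    · have hflip : ∀ j, Function.extend e (flipFun (fun j => decide (j ≠ a)) z) 0 j =
          if j = e a then -z a else Function.extend e z 0 j := by
        intro j
        by_cases hj : ∃ m, e m = j
        · obtain ⟨m, rfl⟩ := hj
          simp only [hext, flipFun, e.injective.eq_iff]
          by_cases hm : m = a <;> simp [hm]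
        · push_neg at hj
          rw [hout _ j hj, if_neg (fun h => hj a h.symm), hout _ j hj]
      show Function.extend e _ 0 ∈ K
      by_cases hfix : τ (e a) = e a
      · convert hK (e a) _ hz.1 using 1
        funext j
        rw [hflip]
        simp only [quarterTurn, hfix, hext]
        by_cases hj : j = e a <;> simp [hj]
      · have hzero : Function.extend e z 0 (τ (e a)) = 0 :=
          hout _ _ fun m hm => hfix (by rw [← hm, hb m hm])
        convert hK (e a) _ (hK (e a) _ hz.1) using 1
        funext j
        rw [hflip]
        simp only [quarterTurn]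
        by_cases hj : j = e a
        · subst hj; simp [hfix, hext]
        · by_cases hj2 : j = τ (e a)
          · subst hj2; simp [hfix, hzero]
          · simp [hj, hj2]
    · have h1 := hz.2 j
      show 0 ≤ if flipAt s a j then _ else _
      simp only [flipFun]
      have hf : flipAt s a j = if j = a then !s a else s j := Function.update_apply s a (!s a) j
      by_cases hj : j = a
      · subst hj
        cases hsa : s j <;> simp [hsa] at hf h1 <;> simp [hf, hsa] <;> linarith
      · simp [hj] at hf
        simpa [hf, hj] using h1

theorem equipartite_of_quarterTurns : Equipartite K := by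
  classical
  intro k e s t
  have hflip : ∀ s a, volume (coordSection K e ∩ orthant (flipAt s a)) =
      volume (coordSection K e ∩ orthant s) := fun s a => by
    refine le_antisymm ?_ (volume_le_flipAt hτ hK e s a)
    simpa [flipAt_flipAt] using volume_le_flipAt hτ hK e (flipAt s a) a
  suffices H : ∀ (T : Finset (Fin k)) (s : Fin k → Bool), (∀ j ∉ T, s j = t j) →
      volume (coordSection K e ∩ orthant s) = volume (coordSection K e ∩ orthant t) from
    H Finset.univ s fun j hj => absurd (Finset.mem_univ j) hj
  intro T
  induction T using Finset.induction_on with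
  | empty => intro s hs; rw [funext fun j => hs j (Finset.notMem_empty j)]
  | insert a T _ ih =>
    intro s hs
    by_cases ha : s a = t a
    · refine ih s fun j hj => ?_
      by_cases hja : j = a
      · rw [hja, ha]
      · exact hs j (by simp [hja, hj])
    · rw [← hflip s a]
      refine ih _ fun j hj => ?_
      by_cases hja : j = a
      · subst hja
        simp only [flipAt, Function.update_self]
        cases h : s j <;> cases h' : t j <;> simp_all
      · rw [flipAt, Function.update_of_ne hja]
        exact hs j (by simp [hja, hj])

end Vale.Agent.P248.Balanced
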