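import Vale.Agent.P248.Balanced.Linear
import Vale.Agent.P248.Balanced.Plane
import Vale.Agent.P248.Balanced.Quarter

/-!
# Hyperoctahedral symmetry off one coordinate plane
-/

open MeasureTheory Set
open scoped ENNReal

noncomputable section

namespace Vale.Agent.P248.Balanced

variable {n : ℕ}

/-- `K` is invariant under sign changes and exchanges of the coordinates other than `a`, `b`. -/
structure OffPlane (K : Set (Fin n → ℝ)) (a b : Fin n) : Prop where
  flip : ∀ i, i ≠ a → i ≠ b → ∀ x ∈ K, Function.update x i (-x i) ∈ K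
  swap : ∀ i j, i ≠ a → i ≠ b → j ≠ a → j ≠ b → ∀ x ∈ K, x ∘ Equiv.swap i j ∈ K

theorem quarterTurn_id (i : Fin n) (x : Fin n → ℝ) :
    quarterTurn id i x = Function.update x i (-x i) := by
  funext j
  by_cases h : j = i
  · subst h; simp [quarterTurn]
  · simp [quarterTurn, h]

theorem update_eq_flipFun (i : Fin n) (x : Fin n → ℝ) :
    Function.update x i (-x i) = flipFun (fun j => decide (j ≠ i)) x := by
  funext j
  by_cases h : j = i
  · subst h; simp [flipFun]
  · simp [flipFun, h]

theorem ins_update (i : Fin (n + 1)) (z : Fin n → ℝ) (p : Fin n) :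
    ins i 0 (Function.update z p (-z p)) =
      Function.update (ins i 0 z) (i.succAbove p) (-ins i 0 z (i.succAbove p)) := by
  funext j
  rcases Fin.eq_self_or_eq_succAbove i j with rfl | ⟨q, rfl⟩
  · simp [Function.update_of_ne (Fin.succAbove_ne _ p).symm]
  · by_cases h : q = p
    · subst h; simp
    · simp [Function.update_of_ne h,
        Function.update_of_ne fun e => h (Fin.succAbove_right_injective e)]

theorem OffPlane.sec {K : Set (Fin (n + 1) → ℝ)} {a b : Fin (n + 1)} (hI : OffPlane K a b)
    {i : Fin (n + 1)} {a' b' : Fin n} (ha : i.succAbove a' = a) (hb : i.succAbove b' = b) :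
    OffPlane (Balanced.sec K i) a' b' := by
  have hne : ∀ p, p ≠ a' → i.succAbove p ≠ a := fun p hp h =>
    hp (Fin.succAbove_right_injective (h.trans ha.symm))
  have hne' : ∀ p, p ≠ b' → i.succAbove p ≠ b := fun p hp h =>
    hp (Fin.succAbove_right_injective (h.trans hb.symm))
  refine ⟨fun p hp hp' z hz => ?_, fun p q hp hp' hq hq' z hz => ?_⟩
  · show ins i 0 _ ∈ K
    rw [ins_update]
    exact hI.flip _ (hne p hp) (hne' p hp') _ hz
  · show ins i 0 _ ∈ K
    convert hI.swap _ _ (hne p hp) (hne' p hp') (hne q hq) (hne' q hq') _ hz using 1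
    funext j
    rcases Fin.eq_self_or_eq_succAbove i j with rfl | ⟨r, rfl⟩
    · simp [Equiv.swap_apply_of_ne_of_ne (Fin.succAbove_ne _ p).symm (Fin.succAbove_ne _ q).symm]
    · have : Equiv.swap (i.succAbove p) (i.succAbove q) (i.succAbove r) =
          i.succAbove (Equiv.swap p q r) :=
        ((Fin.succAbove_right_injective (p := i)).swap_apply p q r)
      simp [this]

/-- The coordinate quadrant of the plane `a`, `b`. -/
def quadrant (a b : Fin n) : Set (Fin n → ℝ) := {z | 0 ≤ z a ∧ 0 ≤ z b}

/-- A symmetric set invariant under the sign changes off the plane, with equal quarters, is split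
equally by the orthants. -/
theorem orthant_split {K : Set (Fin n → ℝ)} (hS : SymBody K) {a b : Fin n} (hab : a ≠ b)
    (hflip : ∀ i, i ≠ a → i ≠ b → ∀ x ∈ K, Function.update x i (-x i) ∈ K)
    (hq : 4 * volume (K ∩ quadrant a b) = volume K) (s : Fin n → Bool) :
    2 ^ n * volume (K ∩ orthant s) = volume K := by
  classical
  have hKm := hS.compact.measurableSet
  set F := fun s => volume (K ∩ orthant s) with hF
  have hle : ∀ s i, i ≠ a → i ≠ b → F s ≤ F (flipAt s i) := fun s i hia hib => by
    refine le_trans ?_ ((measurePreserving_flipFun (fun j => decide (j ≠ i))).measure_preimage_le _)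
    refine measure_mono fun x hx => ⟨?_, fun j => ?_⟩
    · rw [← update_eq_flipFun]; exact hflip i hia hib x hx.1
    · have h1 := hx.2 j
      show 0 ≤ if flipAt s i j then _ else _
      simp only [flipFun]
      have hf : flipAt s i j = if j = i then !s i else s j := Function.update_apply s i (!s i) j
      by_cases hj : j = i
      · subst hj
        cases hsa : s j <;> simp [hsa] at hf h1 <;> simp [hf, hsa] <;> linarith
      · simp [hj] at hf
        simpa [hf, hj] using h1
  have hflipF : ∀ s i, i ≠ a → i ≠ b → F (flipAt s i) = F s := fun s i hia hib =>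
    le_antisymm (by simpa [flipAt_flipAt] using hle (flipAt s i) i hia hib) (hle s i hia hib)
  have hsame : ∀ s t, s a = t a → s b = t b → F s = F t := by
    suffices H : ∀ (T : Finset (Fin n)) (s t : Fin n → Bool), a ∉ T → b ∉ T →
        (∀ j ∉ T, s j = t j) → F s = F t by
      intro s t ha hb
      refine H (Finset.univ.filter fun j => s j ≠ t j) s t (by simp [ha]) (by simp [hb])
        fun j hj => ?_
      simpa using hj
    intro T
    induction T using Finset.induction_on with
    | empty => intro s t _ _ h; rw [funext fun j => h j (Finset.notMem_empty j)]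
    | insert i T hiT ih =>
      intro s t ha hb h
      simp only [Finset.mem_insert, not_or] at ha hb
      by_cases hi : s i = t i
      · refine ih s t ha.2 hb.2 fun j hj => ?_
        by_cases hji : j = i
        · rw [hji, hi]
        · exact h j (by simp [hji, hj])
      · rw [← hflipF s i (Ne.symm ha.1) (Ne.symm hb.1)]
        refine ih _ t ha.2 hb.2 fun j hj => ?_
        by_cases hji : j = i
        · subst hji
          simp only [flipAt, Function.update_self]
          cases h1 : s j <;> cases h2 : t j <;> simp_all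
        · rw [flipAt, Function.update_of_ne hji]
          exact h j (by simp [hji, hj])
  have hanti : ∀ s, F (fun j => !s j) = F s := by
    have hle' : ∀ s, F s ≤ F (fun j => !s j) := fun s => by
      refine le_trans ?_ ((Measure.measurePreserving_neg
        (volume : Measure (Fin n → ℝ))).measure_preimage_le _)
      refine measure_mono fun x hx => ⟨hS.neg_mem x hx.1, fun j => ?_⟩
      have := hx.2 j
      cases h : s j <;> simp_all
    intro s
    exact le_antisymm (by simpa using hle' (fun j => !s j)) (hle' s)
  set F0 := F (fun _ => true)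
  set F1 := F (Function.update (fun _ => true) b false)
  have hval : ∀ s : Fin n → Bool, F s = if s a = s b then F0 else F1 := fun s => by
    cases ha : s a <;> cases hb : s b <;> simp only [Bool.false_eq_true, if_true, if_false,
      reduceCtorEq]
    · rw [← hanti s]; exact hsame _ _ (by simp [ha]) (by simp [hb])
    · rw [← hanti s]; exact hsame _ _ (by simp [ha, hab]) (by simp [hb])
    · exact hsame _ _ (by simp [ha, hab]) (by simp [hb])
    · exact hsame _ _ (by simp [ha]) (by simp [hb])
  -- count
  set P := Finset.univ.filter fun s : Fin n → Bool => s a = true ∧ s b = true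
  set E := Finset.univ.filter fun s : Fin n → Bool => s a = s b
  have hm : MeasurableSet (K ∩ quadrant a b) :=
    hKm.inter ((isClosed_le continuous_const (continuous_apply a)).inter
      (isClosed_le continuous_const (continuous_apply b))).measurableSet
  have hquad : volume (K ∩ quadrant a b) = P.card * F0 := by
    rw [← sum_orthant hm, ← Finset.sum_add_sum_compl P]
    have h0 : ∑ t ∈ Pᶜ, volume (K ∩ quadrant a b ∩ orthant t) = 0 :=
      Finset.sum_eq_zero fun t ht => by
        simp only [P, Finset.mem_compl, Finset.mem_filter, Finset.mem_univ, true_and,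
          not_and_or, Bool.not_eq_true] at ht
        rcases ht with h | h
        · refine measure_mono_null (fun x hx => ?_) (volume_coord_eq_zero a)
          have := hx.2 a
          simp [h] at this
          exact le_antisymm this hx.1.2.1
        · refine measure_mono_null (fun x hx => ?_) (volume_coord_eq_zero b)
          have := hx.2 b
          simp [h] at this
          exact le_antisymm this hx.1.2.2
    rw [h0, add_zero, Finset.sum_congr rfl fun t ht => ?_, Finset.sum_const, nsmul_eq_mul]
    simp only [P, Finset.mem_filter, Finset.mem_univ, true_and] at ht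
    have e : K ∩ quadrant a b ∩ orthant t = K ∩ orthant t := by
      ext x
      refine ⟨fun h => ⟨h.1.1, h.2⟩, fun h => ⟨⟨h.1, ?_, ?_⟩, h.2⟩⟩
      · simpa [ht.1] using h.2 a
      · simpa [ht.2] using h.2 b
    rw [e]
    exact hsame t _ ht.1 ht.2
  have hE : E.card = 2 * P.card ∧ Eᶜ.card = 2 * P.card := by
    have hP' : (Finset.univ.filter fun s : Fin n → Bool => s a = false ∧ s b = false).card =
        P.card :=
      Finset.card_bij' (fun s _ => fun j => !s j) (fun s _ => fun j => !s j)
        (fun s hs => by simp_all [P]) (fun s hs => by simp_all [P]) (by simp) (by simp)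
    have hEc : Eᶜ.card = E.card :=
      Finset.card_bij' (fun s _ => flipAt s b) (fun s _ => flipAt s b)
        (fun s hs => by
          simp_all [E, flipAt, Function.update_of_ne hab]
          all_goals (cases h1 : s a <;> cases h2 : s b <;> simp_all))
        (fun s hs => by
          simp_all [E, flipAt, Function.update_of_ne hab]
          all_goals (cases h1 : s a <;> cases h2 : s b <;> simp_all))
        (fun s _ => flipAt_flipAt s b) (fun s _ => flipAt_flipAt s b)
    have hu : E = P ∪ Finset.univ.filter (fun s : Fin n → Bool => s a = false ∧ s b = false) := by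
      ext s
      cases h1 : s a <;> cases h2 : s b <;> simp [E, P, h1, h2]
    have hd : E.card = 2 * P.card := by
      rw [hu, Finset.card_union_of_disjoint, hP']
      · omega
      · exact Finset.disjoint_filter.2 fun s _ h1 h2 => by simp_all
    exact ⟨hd, hEc.trans hd⟩
  have htot : volume K = (2 * P.card : ℕ) * F0 + (2 * P.card : ℕ) * F1 := by
    rw [← sum_orthant hKm, ← Finset.sum_add_sum_compl E]
    rw [Finset.sum_congr rfl (fun t ht => ?_), Finset.sum_congr rfl (s₁ := Eᶜ) (fun t ht => ?_),
      Finset.sum_const, Finset.sum_const, nsmul_eq_mul, nsmul_eq_mul, hE.1, hE.2]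
    · refine (hval t).trans (if_neg ?_)
      simpa [E] using ht
    · exact (hval t).trans (if_pos (Finset.mem_filter.1 ht).2)
  have hPpos : P.card ≠ 0 := Finset.card_ne_zero.2 ⟨fun _ => true, by simp [P]⟩
  have hfin : ∀ T, volume (K ∩ T) ≠ ⊤ := fun T =>
    ne_top_of_le_ne_top hS.compact.measure_lt_top.ne (measure_mono inter_subset_left)
  have h10 : F1 = F0 := by
    have h : (2 * P.card : ℕ) * F0 + (2 * P.card : ℕ) * F1 =
        (2 * P.card : ℕ) * F0 + (2 * P.card : ℕ) * F0 := by
      rw [← htot, ← hq, hquad]; push_cast; ring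
    exact (ENNReal.mul_right_inj (by simpa using hPpos) (ENNReal.natCast_ne_top _)).1
      ((ENNReal.add_right_inj (ENNReal.mul_ne_top (ENNReal.natCast_ne_top _) (hfin _))).1 h)
  have hall : ∀ t, F t = F0 := fun t => by rw [hval t, h10, ite_self]
  show 2 ^ n * F s = volume K
  rw [← sum_orthant hKm, hall, Finset.sum_congr rfl fun t _ => show volume (K ∩ orthant t) = F0
    from hall t]
  simp

/-- The linear map putting the two lines on the coordinate axes. -/
def planeMap (a b : Fin n) (θ φ : ℝ) : (Fin n → ℝ) →ₗ[ℝ] Fin n → ℝ where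
  toFun x j := if j = a then lineForm a b θ x else if j = b then lineForm a b φ x else x j
  map_add' x y := by
    funext j
    simp only [Pi.add_apply, lineForm]
    split_ifs <;> ring
  map_smul' r x := by
    funext j
    simp only [Pi.smul_apply, lineForm, smul_eq_mul, RingHom.id_apply]
    split_ifs <;> ring

theorem planeMap_injective {a b : Fin n} (hab : a ≠ b) {θ φ : ℝ} (h : Real.sin (φ - θ) ≠ 0) :
    Function.Injective (planeMap a b θ φ) := by
  rw [← LinearMap.ker_eq_bot]
  refine LinearMap.ker_eq_bot'.2 fun x hx => ?_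
  have ha := congrFun hx a
  have hb := congrFun hx b
  simp [planeMap, hab.symm, lineForm] at ha hb
  have h1 : Real.sin (φ - θ) * x a = 0 := by
    rw [Real.sin_sub]
    linear_combination Real.cos φ * ha - Real.cos θ * hb
  have h2 : Real.sin (φ - θ) * x b = 0 := by
    rw [Real.sin_sub]
    linear_combination Real.sin φ * ha - Real.sin θ * hb
  simp [h] at h1 h2
  funext j
  by_cases hja : j = a
  · rw [hja, h1]; rfl
  · by_cases hjb : j = b
    · rw [hjb, h2]; rfl
    · simpa [planeMap, hja, hjb] using congrFun hx j

theorem planeMap_ins {a b : Fin (n + 1)} {i : Fin (n + 1)} {a' b' : Fin n}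
    (ha : i.succAbove a' = a) (hb : i.succAbove b' = b) (θ φ : ℝ) (z : Fin n → ℝ) :
    planeMap a b θ φ (ins i 0 z) = ins i 0 (planeMap a' b' θ φ z) := by
  subst ha hb
  funext j
  rcases Fin.eq_self_or_eq_succAbove i j with rfl | ⟨q, rfl⟩
  · simp [planeMap, (Fin.succAbove_ne _ _).symm]
  · simp [planeMap, lineForm, (Fin.succAbove_right_injective (p := i)).eq_iff]

/-- The map as an equivalence. -/
def planeEquiv {a b : Fin n} (hab : a ≠ b) {θ φ : ℝ} (h : Real.sin (φ - θ) ≠ 0) :
    (Fin n → ℝ) ≃ₗ[ℝ] Fin n → ℝ :=
  LinearEquiv.ofInjectiveEndo (planeMap a b θ φ) (planeMap_injective hab h)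

@[simp]
theorem planeEquiv_apply {a b : Fin n} (hab : a ≠ b) {θ φ : ℝ} (h : Real.sin (φ - θ) ≠ 0)
    (x : Fin n → ℝ) : planeEquiv hab h x = planeMap a b θ φ x := rfl

/-- Quarters in the new coordinates. -/
theorem quarter_image {K : Set (Fin n → ℝ)} (hS : SymBody K) {a b : Fin n} (hab : a ≠ b)
    {θ φ : ℝ} (h : Real.sin (φ - θ) ≠ 0) (hq : quad K a b θ φ = volume.real K / 4) :
    4 * volume (planeEquiv hab h '' K ∩ quadrant a b) = volume (planeEquiv hab h '' K) := by
  rw [← Set.image_inter_preimage, volume_image, volume_image]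
  have e : planeEquiv hab h ⁻¹' quadrant a b =
      {z | 0 ≤ lineForm a b θ z ∧ 0 ≤ lineForm a b φ z} := by
    ext z; simp [quadrant, planeMap, hab.symm]
  rw [e, mul_left_comm]
  congr 1
  have hfin : volume (K ∩ {z | 0 ≤ lineForm a b θ z ∧ 0 ≤ lineForm a b φ z}) ≠ ⊤ :=
    ne_top_of_le_ne_top hS.compact.measure_lt_top.ne (measure_mono inter_subset_left)
  rw [← ENNReal.toReal_eq_toReal_iff' (ENNReal.mul_ne_top (by simp) hfin)
    hS.compact.measure_lt_top.ne, ENNReal.toReal_mul]
  simp only [quad, Measure.real] at hq
  rw [hq]; simp; ring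

/-- The flips off the plane commute with the straightening map. -/
theorem flip_image {K : Set (Fin n → ℝ)} {a b : Fin n} (hab : a ≠ b) {θ φ : ℝ}
    (h : Real.sin (φ - θ) ≠ 0)
    (hflip : ∀ i, i ≠ a → i ≠ b → ∀ x ∈ K, Function.update x i (-x i) ∈ K) :
    ∀ i, i ≠ a → i ≠ b → ∀ x ∈ planeEquiv hab h '' K,
      Function.update x i (-x i) ∈ planeEquiv hab h '' K := by
  rintro i hia hib _ ⟨x, hx, rfl⟩
  refine ⟨_, hflip i hia hib x hx, ?_⟩
  funext j
  by_cases hj : j = i
  · subst hj; simp [planeMap, hia, hib]
  · simp [planeMap, lineForm, Function.update_of_ne hj, Function.update_of_ne hia.symm,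
      Function.update_of_ne hib.symm]

theorem exists_succAbove_of_ne {i c : Fin (n + 1)} (h : i ≠ c) : ∃ c', i.succAbove c' = c :=
  Fin.exists_succAbove_eq h.symm

/-- All sections off the plane are congruent. -/
theorem quad_sec_eq {K : Set (Fin (n + 1) → ℝ)} {a b : Fin (n + 1)} (hI : OffPlane K a b)
    {i i0 : Fin (n + 1)} (hia : i ≠ a) (hib : i ≠ b) (h0a : i0 ≠ a) (h0b : i0 ≠ b)
    {a' b' a0 b0 : Fin n} (ha : i.succAbove a' = a) (hb : i.succAbove b' = b)
    (ha0 : i0.succAbove a0 = a) (hb0 : i0.succAbove b0 = b) (θ φ : ℝ)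
    (hq : quad (Balanced.sec K i0) a0 b0 θ φ = volume.real (Balanced.sec K i0) / 4) :
    quad (Balanced.sec K i) a' b' θ φ = volume.real (Balanced.sec K i) / 4 := by
  set σ := Equiv.swap i i0
  have hex : ∀ m, ∃ m', i.succAbove m' = σ (i0.succAbove m) := fun m =>
    Fin.exists_succAbove_eq fun h => Fin.succAbove_ne i0 m
      (σ.injective (h.trans (Equiv.swap_apply_right i i0).symm))
  choose ρ hρ using hex
  have hρinj : Function.Injective ρ := fun p q hpq => by
    have := congrArg i.succAbove hpq
    rw [hρ, hρ] at this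
    exact Fin.succAbove_right_injective (σ.injective this)
  set π : Equiv.Perm (Fin n) := Equiv.ofBijective ρ hρinj.bijective_of_finite
  have hρa : ρ a0 = a' := Fin.succAbove_right_injective (p := i)
    (by rw [hρ, ha0, ha]; exact Equiv.swap_apply_of_ne_of_ne hia.symm h0a.symm)
  have hρb : ρ b0 = b' := Fin.succAbove_right_injective (p := i)
    (by rw [hρ, hb0, hb]; exact Equiv.swap_apply_of_ne_of_ne hib.symm h0b.symm)
  have hmem : ∀ z : Fin n → ℝ, z ∈ Balanced.sec K i ↔ (fun m => z (ρ m)) ∈ Balanced.sec K i0 := by
    intro z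
    have e : (ins i 0 z) ∘ σ = ins i0 0 (fun m => z (ρ m)) := by
      funext j
      rcases Fin.eq_self_or_eq_succAbove i0 j with rfl | ⟨m, rfl⟩
      · simp [σ]
      · simp [← hρ m]
    show ins i 0 z ∈ K ↔ ins i0 0 _ ∈ K
    rw [← e]
    refine ⟨fun hz => hI.swap i i0 hia hib h0a h0b _ hz, fun hz => ?_⟩
    have := hI.swap i i0 hia hib h0a h0b _ hz
    simpa [Function.comp_assoc, σ, ← Equiv.coe_trans] using this
  set e' := MeasurableEquiv.piCongrLeft (fun _ : Fin n => ℝ) π.symm
  have hmp := volume_measurePreserving_piCongrLeft (fun _ : Fin n => ℝ) π.symm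
  have he : ∀ z, e' z = fun m => z (ρ m) := fun z => funext fun m => by
    conv_lhs => rw [← π.symm_apply_apply m]
    simp only [e']
    rw [MeasurableEquiv.piCongrLeft_apply_apply]
    rfl
  have h : ∀ T T' : Set (Fin n → ℝ), (∀ z, z ∈ T ↔ e' z ∈ T') →
      volume.real T = volume.real T' := fun T T' hT => by
    rw [show T = e' ⁻¹' T' from Set.ext hT, Measure.real, Measure.real,
      hmp.measure_preimage_equiv]
  rw [h (Balanced.sec K i) (Balanced.sec K i0) fun z => by rw [he]; exact hmem z, ← hq]
  refine h _ _ fun z => ?_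
  simp only [mem_inter_iff, mem_setOf_eq, lineForm, he, hρa, hρb, ← hmem z]

theorem four_pow_le_offPlane : ∀ {n : ℕ} {K : Set (Fin n → ℝ)} {a b : Fin n}, SymBody K → a ≠ b →
    OffPlane K a b → (4 : ℝ≥0∞) ^ n ≤ volume K * suppInt K := by
  intro n
  induction n with
  | zero => intro K a; exact a.elim0
  | succ m ih =>
    intro K a b hS hab hI
    -- the two lines
    obtain ⟨θ, φ, hne, hq, hqs⟩ : ∃ θ φ, Real.sin (φ - θ) ≠ 0 ∧
        quad K a b θ φ = volume.real K / 4 ∧
        ∀ i, i ≠ a → i ≠ b → ∀ a' b', i.succAbove a' = a → i.succAbove b' = b →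
          quad (Balanced.sec K i) a' b' θ φ = volume.real (Balanced.sec K i) / 4 := by
      by_cases hex : ∃ i, i ≠ a ∧ i ≠ b
      · obtain ⟨i0, h0a, h0b⟩ := hex
        obtain ⟨a0, ha0⟩ := exists_succAbove_of_ne h0a
        obtain ⟨b0, hb0⟩ := exists_succAbove_of_ne h0b
        have hab0 : a0 ≠ b0 := fun h => hab (by rw [← ha0, ← hb0, h])
        obtain ⟨θ, φ, h1, h2, h3⟩ := exists_split hS (hS.sec i0) hab hab0
        exact ⟨θ, φ, h1, h2, fun i hia hib a' b' ha hb =>
          quad_sec_eq hI hia hib h0a h0b ha hb ha0 hb0 θ φ h3⟩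
      · obtain ⟨θ, φ, h1, h2, -⟩ := exists_split hS hS hab hab
        exact ⟨θ, φ, h1, h2, fun i hia hib => absurd ⟨i, hia, hib⟩ hex⟩
    set T := planeEquiv hab hne
    have hS' : SymBody (T '' K) := hS.image T
    have hflip' := flip_image hab hne hI.flip
    -- sections of the plane directions are unconditional
    have huncond : ∀ c d, c ≠ d → (c = a ∧ d = b ∨ c = b ∧ d = a) →
        Equipartite (Balanced.sec (T '' K) c) := by
      intro c d hcd hc
      refine equipartite_of_quarterTurns (τ := id) (fun _ => rfl) fun p z hz => ?_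
      rw [quarterTurn_id]
      show ins c 0 _ ∈ T '' K
      rw [ins_update]
      by_cases hp : c.succAbove p = d
      · -- all the other flips and the central symmetry
        suffices H : ∀ U : Finset (Fin (m + 1)), a ∉ U → b ∉ U →
            ∀ y ∈ T '' K, (fun j => if j ∈ U then -y j else y j) ∈ T '' K by
          have h := hS'.neg_mem _ (H (Finset.univ.filter fun j => j ≠ a ∧ j ≠ b) (by simp)
            (by simp) _ hz)
          convert h using 1
          funext j
          rcases Fin.eq_self_or_eq_succAbove c j with rfl | ⟨q, rfl⟩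
          · simp [Function.update_of_ne (Fin.succAbove_ne _ p).symm]
          · by_cases hqp : q = p
            · subst hqp
              rcases hc with ⟨hca, hdb⟩ | ⟨hca, hdb⟩ <;> simp [hp, hdb, hab, hab.symm] <;>
                simp [← hdb, ← hp]
            · have hne1 : c.succAbove q ≠ d := fun h =>
                hqp (Fin.succAbove_right_injective (h.trans hp.symm))
              have hne2 : c.succAbove q ≠ c := Fin.succAbove_ne c q
              rcases hc with ⟨hca, hdb⟩ | ⟨hca, hdb⟩ <;>
                simp [Function.update_of_ne (fun e => hqp (Fin.succAbove_right_injective e)),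
                  ← hca, ← hdb, hne1, hne2]
        intro U
        induction U using Finset.induction_on with
        | empty => intro _ _ y hy; simpa using hy
        | insert i U hiU ihU =>
          intro hai hbi y hy
          simp only [Finset.mem_insert, not_or] at hai hbi
          have h := hflip' i (Ne.symm hai.1) (Ne.symm hbi.1) _ (ihU hai.2 hbi.2 y hy)
          convert h using 1
          funext j
          by_cases hj : j = i
          · subst hj; simp [hiU]
          · simp [Function.update_of_ne hj, hj]
      · refine hflip' _ ?_ ?_ _ hz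
        · rcases hc with ⟨hca, hdb⟩ | ⟨hca, hdb⟩
          · exact hca ▸ Fin.succAbove_ne c p
          · exact hdb ▸ hp
        · rcases hc with ⟨hca, hdb⟩ | ⟨hca, hdb⟩
          · exact hdb ▸ hp
          · exact hca ▸ Fin.succAbove_ne c p
    -- the image of a section is the section of the image
    have hsec : ∀ i, ∀ a' b', i.succAbove a' = a → i.succAbove b' = b → ∀ hab' : a' ≠ b',
        Balanced.sec (T '' K) i = planeEquiv hab' hne '' Balanced.sec K i := by
      intro i a' b' ha hb hab'
      ext w
      constructor
      · rintro ⟨x, hx, hxw⟩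
        set z := (planeEquiv hab' hne).symm w
        have hz : T (ins i 0 z) = ins i 0 w := by
          rw [planeEquiv_apply, planeMap_ins ha hb, ← planeEquiv_apply hab' hne]
          simp [z]
        refine ⟨z, ?_, by simp [z]⟩
        show ins i 0 z ∈ K
        rwa [← T.injective (hxw.trans hz.symm)]
      · rintro ⟨z, hz, rfl⟩
        exact ⟨ins i 0 z, hz, by simp [T, planeMap_ins ha hb]⟩
    have hsplit : Split (T '' K) := by
      refine ⟨orthant_split hS' hab hflip' (quarter_image hS hab hne hq), fun i => ?_⟩
      by_cases hia : i = a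
      · exact (huncond i b (hia ▸ hab) (Or.inl ⟨hia, rfl⟩)).orthant_eq
          (hS'.sec i).compact.measurableSet
      by_cases hib : i = b
      · exact (huncond i a (hib ▸ hab.symm) (Or.inr ⟨hib, rfl⟩)).orthant_eq
          (hS'.sec i).compact.measurableSet
      obtain ⟨a', ha⟩ := exists_succAbove_of_ne hia
      obtain ⟨b', hb⟩ := exists_succAbove_of_ne hib
      have hab' : a' ≠ b' := fun h => hab (by rw [← ha, ← hb, h])
      rw [hsec i a' b' ha hb hab']
      exact orthant_split ((hS.sec i).image _) hab' (flip_image hab' hne (hI.sec ha hb).flip)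
        (quarter_image (hS.sec i) hab' hne (hqs i hia hib a' b' ha hb))
    rw [← volume_mul_suppInt_image T hS]
    refine hsplit.step hS' fun i => ?_
    by_cases hia : i = a
    · exact four_pow_le (hS'.sec i) (huncond i b (hia ▸ hab) (Or.inl ⟨hia, rfl⟩))
    by_cases hib : i = b
    · exact four_pow_le (hS'.sec i) (huncond i a (hib ▸ hab.symm) (Or.inr ⟨hib, rfl⟩))
    obtain ⟨a', ha⟩ := exists_succAbove_of_ne hia
    obtain ⟨b', hb⟩ := exists_succAbove_of_ne hib
    have hab' : a' ≠ b' := fun h => hab (by rw [← ha, ← hb, h])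
    rw [hsec i a' b' ha hb hab', volume_mul_suppInt_image _ (hS.sec i)]
    exact ih (hS.sec i) hab' (hI.sec ha hb)

end Vale.Agent.P248.Balanced
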