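import Vale.Agent.P248.Balanced.Main

/-!
# Invariance under linear maps, and the map straightening two lines of a coordinate plane
-/

open MeasureTheory Set
open scoped ENNReal Matrix

noncomputable section

namespace Vale.Agent.P248.Balanced

variable {n : ℕ}

theorem SymBody.image (T : (Fin n → ℝ) ≃ₗ[ℝ] Fin n → ℝ) {K : Set (Fin n → ℝ)} (hK : SymBody K) :
    SymBody (T '' K) := by
  refine ⟨hK.compact.image T.toContinuousLinearEquiv.continuous,
    hK.convex.linear_image T.toLinearMap, ?_, ?_⟩
  · have h := T.toContinuousLinearEquiv.toHomeomorph.image_interior K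
    exact h ▸ hK.interior_nonempty.image _
  · rintro _ ⟨x, hx, rfl⟩
    exact ⟨-x, hK.neg_mem x hx, map_neg T x⟩

theorem volume_image (T : (Fin n → ℝ) ≃ₗ[ℝ] Fin n → ℝ) (S : Set (Fin n → ℝ)) :
    volume (T '' S) = ENNReal.ofReal |LinearMap.det T.toLinearMap| * volume S :=
  Measure.addHaar_image_linearMap volume T.toLinearMap S

/-- `∫ exp (-h)` scales inversely to volume. -/
theorem suppInt_image (T : (Fin n → ℝ) ≃ₗ[ℝ] Fin n → ℝ) {K : Set (Fin n → ℝ)} (hK : SymBody K) :
    suppInt (T '' K) = ENNReal.ofReal |(LinearMap.det T.toLinearMap)⁻¹| * suppInt K := by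
  set M := LinearMap.toMatrix' T.toLinearMap
  have hdet : LinearMap.det T.toLinearMap ≠ 0 := T.isUnit_det'.ne_zero
  have hdetM : (Mᵀ).det = LinearMap.det T.toLinearMap := by
    rw [Matrix.det_transpose, LinearMap.det_toMatrix']
  have hTM : ∀ x, T x = M.mulVec x := fun x => (LinearMap.toMatrix'_mulVec T.toLinearMap x).symm
  have hsupp : ∀ y, supp (T '' K) y = supp K (Matrix.toLin' Mᵀ y) := fun y => by
    simp only [supp, Set.image_image]
    congr 1
    refine Set.image_congr fun x _ => ?_
    rw [hTM, Matrix.toLin'_apply, Matrix.mulVec_transpose]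
    show (M.mulVec x) ⬝ᵥ y = x ⬝ᵥ (Matrix.vecMul y M)
    rw [dotProduct_comm, Matrix.dotProduct_mulVec, dotProduct_comm]
  have hd : LinearMap.det (Matrix.toLin' Mᵀ) = LinearMap.det T.toLinearMap := by
    rw [LinearMap.det_toLin', hdetM]
  rw [suppInt]
  simp only [hsupp]
  rw [← lintegral_map (μ := volume)
    (f := fun z => ENNReal.ofReal (Real.exp (-supp K z))) (measurable_expNeg hK).ennreal_ofReal
    (Matrix.toLin' Mᵀ).continuous_of_finiteDimensional.measurable,
    Measure.map_linearMap_addHaar_pi_eq_smul_addHaar (hd ▸ hdet), lintegral_smul_measure, hd,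
    smul_eq_mul, suppInt]

theorem volume_mul_suppInt_image (T : (Fin n → ℝ) ≃ₗ[ℝ] Fin n → ℝ) {K : Set (Fin n → ℝ)}
    (hK : SymBody K) : volume (T '' K) * suppInt (T '' K) = volume K * suppInt K := by
  have hdet : LinearMap.det T.toLinearMap ≠ 0 := T.isUnit_det'.ne_zero
  rw [volume_image, suppInt_image T hK, mul_mul_mul_comm, ← ENNReal.ofReal_mul (abs_nonneg _),
    ← abs_mul, mul_inv_cancel₀ hdet, abs_one, ENNReal.ofReal_one, one_mul]

end Vale.Agent.P248.Balanced
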