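import Vale.Agent.P248.Balanced.Sections

/-!
# The support function along coordinate lines

On every line in direction `i` the total variation of `exp (-h)` is at least twice the value of
`exp (-hᵢ)`, where `hᵢ` is the support function of the section `xᵢ = 0`.
-/

open MeasureTheory Set Filter
open scoped ENNReal NNReal Topology

noncomputable section

namespace Vale.Agent.P248.Balanced

variable {n : ℕ}

/-- The support function. -/
def supp (K : Set (Fin n → ℝ)) (y : Fin n → ℝ) : ℝ :=
  sSup ((fun x => ∑ i, x i * y i) '' K)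

namespace SymBody

variable {K : Set (Fin n → ℝ)} (hK : SymBody K)
include hK

theorem zero_mem : (0 : Fin n → ℝ) ∈ K := interior_subset hK.zero_mem_interior

theorem le_supp {x : Fin n → ℝ} (hx : x ∈ K) (y : Fin n → ℝ) : ∑ i, x i * y i ≤ supp K y :=
  le_csSup ((hK.compact.image (by fun_prop)).isBounded.bddAbove) ⟨x, hx, rfl⟩

theorem supp_le {y : Fin n → ℝ} {c : ℝ} (h : ∀ x ∈ K, ∑ i, x i * y i ≤ c) : supp K y ≤ c :=
  csSup_le (Nonempty.image _ ⟨0, hK.zero_mem⟩) fun _ ⟨x, hx, he⟩ => he ▸ h x hx

theorem supp_nonneg (y : Fin n → ℝ) : 0 ≤ supp K y := by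
  simpa using hK.le_supp hK.zero_mem y

theorem supp_zero : supp K 0 = 0 :=
  le_antisymm (hK.supp_le fun x _ => by simp) (hK.supp_nonneg 0)

theorem supp_add (y w : Fin n → ℝ) : supp K (y + w) ≤ supp K y + supp K w :=
  hK.supp_le fun x hx => by
    have : ∑ i, x i * (y + w) i = ∑ i, x i * y i + ∑ i, x i * w i := by
      simp only [Pi.add_apply, mul_add, Finset.sum_add_distrib]
    rw [this]
    exact add_le_add (hK.le_supp hx y) (hK.le_supp hx w)

theorem supp_smul (r : ℝ) (y : Fin n → ℝ) : supp K (r • y) ≤ |r| * supp K y :=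
  hK.supp_le fun x hx => by
    have e : ∑ i, x i * (r • y) i = r * ∑ i, x i * y i := by
      rw [Finset.mul_sum]; simp [mul_left_comm]
    rw [e]
    rcases le_total 0 r with h | h
    · rw [abs_of_nonneg h]; exact mul_le_mul_of_nonneg_left (hK.le_supp hx y) h
    · have h2 := hK.le_supp (hK.neg_mem x hx) y
      simp only [Pi.neg_apply, neg_mul, Finset.sum_neg_distrib] at h2
      rw [abs_of_nonpos h]
      nlinarith [mul_le_mul_of_nonneg_left h2 (neg_nonneg.2 h)]

theorem supp_neg (y : Fin n → ℝ) : supp K (-y) = supp K y := by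
  refine le_antisymm ?_ ?_
  · simpa using hK.supp_smul (-1) y
  · simpa using hK.supp_smul (-1) (-y)

theorem eq_zero_of_supp {y : Fin n → ℝ} (h : supp K y = 0) : y = 0 := by
  by_contra hy
  obtain ⟨r, hr, hball⟩ := Metric.isOpen_iff.1 isOpen_interior 0 hK.zero_mem_interior
  set c := r / (2 * ‖y‖)
  have hy0 : 0 < ‖y‖ := norm_pos_iff.2 hy
  have hmem : c • y ∈ K := by
    refine interior_subset (hball ?_)
    rw [mem_ball_zero_iff, norm_smul, Real.norm_eq_abs, abs_of_pos (by positivity)]
    simp only [c]; field_simp; linarith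
  have h2 := hK.le_supp hmem y
  rw [h] at h2
  have e : ∑ i, (c • y) i * y i = c * ∑ i, y i * y i := by
    rw [Finset.mul_sum]; simp [mul_assoc]
  rw [e] at h2
  obtain ⟨j, hj⟩ := Function.ne_iff.1 hy
  have hpos : 0 < ∑ i, y i * y i :=
    Finset.sum_pos' (fun i _ => mul_self_nonneg _) ⟨j, Finset.mem_univ j, mul_self_pos.2 hj⟩
  nlinarith [mul_pos (show 0 < c by positivity) hpos]

theorem exists_lipschitz : ∃ C : ℝ≥0, LipschitzWith C (supp K) := by
  obtain ⟨R, hR⟩ := hK.compact.isBounded.subset_closedBall 0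
  refine ⟨(n : ℝ≥0) * R.toNNReal, LipschitzWith.of_le_add_mul _ fun y w => ?_⟩
  have hd : supp K (y - w) ≤ (n : ℝ) * R.toNNReal * dist y w := by
    refine hK.supp_le fun x hx => ?_
    calc ∑ i, x i * (y - w) i ≤ ∑ _i : Fin n, (R.toNNReal : ℝ) * dist y w := by
          refine Finset.sum_le_sum fun i _ => ?_
          refine (le_abs_self _).trans ((abs_mul _ _).trans_le ?_)
          refine mul_le_mul ?_ ?_ (abs_nonneg _) (NNReal.coe_nonneg _)
          · exact ((norm_le_pi_norm x i).trans (mem_closedBall_zero_iff.1 (hR hx))).trans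
              (Real.le_coe_toNNReal R)
          · rw [dist_eq_norm]; exact norm_le_pi_norm (y - w) i
      _ = _ := by simp [mul_assoc]
  have h := hK.supp_add w (y - w)
  rw [add_sub_cancel] at h
  push_cast
  linarith

theorem continuous_supp : Continuous (supp K) :=
  let ⟨_, hC⟩ := hK.exists_lipschitz
  hC.continuous

end SymBody

theorem sum_ins (i : Fin (n + 1)) (x : Fin (n + 1) → ℝ) (t : ℝ) (y : Fin n → ℝ) :
    ∑ j, x j * ins i t y j = x i * t + ∑ m, x (i.succAbove m) * y m := by
  rw [Fin.sum_univ_succAbove _ i]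
  simp

/-- Some point of each line sees only the section. -/
theorem exists_supp_ins_le {K : Set (Fin (n + 1) → ℝ)} (hK : SymBody K) (i : Fin (n + 1))
    (y : Fin n → ℝ) : ∃ t, supp K (ins i t y) ≤ supp (sec K i) y := by
  set g := supp (sec K i) y
  set d : (Fin (n + 1) → ℝ) → ℝ := fun x => ∑ m, x (i.succAbove m) * y m
  obtain ⟨r, hr, hball⟩ := Metric.isOpen_iff.1 isOpen_interior 0 hK.zero_mem_interior
  have hp : (Pi.single i (r / 2) : Fin (n + 1) → ℝ) ∈ K := by
    refine interior_subset (hball ?_)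
    rw [mem_ball_zero_iff, Pi.norm_single, Real.norm_eq_abs, abs_of_pos (by linarith)]
    linarith
  have key : ∀ a ∈ K, ∀ b ∈ K, a i < 0 → 0 < b i → (d a - g) / -a i ≤ (g - d b) / b i := by
    intro a ha b hb hai hbi
    have hs : 0 < b i - a i := by linarith
    have hw := hK.convex ha hb (div_nonneg hbi.le hs.le)
      (div_nonneg (neg_nonneg.2 hai.le) hs.le) (by field_simp; ring)
    set w := (b i / (b i - a i)) • a + (-a i / (b i - a i)) • b
    have hwi : w i = 0 := by simp [w]; field_simp; ring
    have hsec : (fun m => w (i.succAbove m)) ∈ sec K i := by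
      have e : ins i 0 (fun m => w (i.succAbove m)) = w := by
        ext j
        rcases Fin.eq_self_or_eq_succAbove i j with rfl | ⟨m, rfl⟩ <;> simp [hwi]
      rw [sec, mem_setOf_eq, e]
      exact hw
    have h := (hK.sec i).le_supp hsec y
    have e : ∑ m, w (i.succAbove m) * y m = (b i * d a + -a i * d b) / (b i - a i) := by
      simp only [d, Finset.mul_sum]
      rw [← Finset.sum_add_distrib, Finset.sum_div]
      refine Finset.sum_congr rfl fun m _ => ?_
      simp [w]; field_simp
    rw [e, div_le_iff₀ hs] at h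
    rw [div_le_div_iff₀ (by linarith) hbi]
    linarith
  set S := (fun a => (d a - g) / -a i) '' {a ∈ K | a i < 0}
  have hne : S.Nonempty := Nonempty.image _
    ⟨-Pi.single i (r / 2), hK.neg_mem _ hp, by simp; linarith⟩
  have hbd : BddAbove S := ⟨_, by
    rintro _ ⟨a, ha, rfl⟩
    exact key a ha.1 _ hp ha.2 (by simp; linarith)⟩
  refine ⟨sSup S, hK.supp_le fun x hx => ?_⟩
  rw [sum_ins]
  rcases lt_trichotomy (x i) 0 with h | h | h
  · have := le_csSup hbd (mem_image_of_mem (fun a => (d a - g) / -a i) (show x ∈ {a ∈ K | a i < 0} from ⟨hx, h⟩))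
    rw [div_le_iff₀ (by linarith)] at this
    linarith
  · have hsec : (fun m => x (i.succAbove m)) ∈ sec K i := by
      have e : ins i 0 (fun m => x (i.succAbove m)) = x := by
        ext j
        rcases Fin.eq_self_or_eq_succAbove i j with rfl | ⟨m, rfl⟩ <;> simp [h]
      rw [sec, mem_setOf_eq, e]
      exact hx
    have := (hK.sec i).le_supp hsec y
    rw [h, zero_mul, zero_add]
    exact this
  · have : sSup S ≤ (g - d x) / x i := csSup_le hne (by
      rintro _ ⟨a, ha, rfl⟩; exact key a ha.1 x hx ha.2 h)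
    rw [le_div_iff₀ h] at this
    linarith

theorem abs_exp_neg_sub_le {a b : ℝ} (ha : 0 ≤ a) (hb : 0 ≤ b) :
    |Real.exp (-a) - Real.exp (-b)| ≤ |a - b| := by
  wlog hab : a ≤ b generalizing a b
  · rw [abs_sub_comm, abs_sub_comm a]; exact this hb ha (le_of_not_ge hab)
  rw [abs_of_nonneg (sub_nonneg.2 (Real.exp_le_exp.2 (neg_le_neg hab))),
    abs_of_nonpos (sub_nonpos.2 hab)]
  have h1 : Real.exp (-b) = Real.exp (-a) * Real.exp (-(b - a)) := by
    rw [← Real.exp_add]; ring_nf
  have h2 := Real.add_one_le_exp (-(b - a))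
  have h3 : Real.exp (-a) ≤ 1 := Real.exp_le_one_iff.2 (by linarith)
  nlinarith [Real.exp_pos (-a)]

/-- The variation of `exp (-F)` on a whole line. -/
theorem two_exp_le_lintegral {F : ℝ → ℝ} {C : ℝ≥0} (hF : LipschitzWith C F) (h0 : ∀ t, 0 ≤ F t)
    (htop : Tendsto F atTop atTop) (hbot : Tendsto F atBot atTop) (c : ℝ) :
    2 * ENNReal.ofReal (Real.exp (-F c)) ≤
      ∫⁻ t, ENNReal.ofReal (|deriv F t| * Real.exp (-F t)) := by
  set G := fun t => Real.exp (-F t) with hG
  have hGlip : LipschitzWith C G := LipschitzWith.of_dist_le_mul fun s t => by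
    rw [Real.dist_eq]
    exact (abs_exp_neg_sub_le (h0 s) (h0 t)).trans (by rw [← Real.dist_eq]; exact hF.dist_le_mul s t)
  have hbound : ∀ t, |deriv F t| * Real.exp (-F t) ≤ C := fun t => by
    have h1 : ‖deriv F t‖ ≤ C := norm_deriv_le_of_lipschitz hF
    have h2 : Real.exp (-F t) ≤ 1 := Real.exp_le_one_iff.2 (by linarith [h0 t])
    rw [Real.norm_eq_abs] at h1
    nlinarith [abs_nonneg (deriv F t), Real.exp_pos (-F t)]
  have hint : ∀ a b : ℝ,
      IntervalIntegrable (fun t => |deriv F t| * Real.exp (-F t)) volume a b := fun a b => by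
    refine IntervalIntegrable.mono_fun (f := fun _ : ℝ => (C : ℝ)) intervalIntegrable_const
      (((measurable_deriv F).abs.mul
        (hF.continuous.neg.rexp).measurable).aestronglyMeasurable)
      (Eventually.of_forall fun t => ?_)
    simp only [Real.norm_eq_abs, NNReal.abs_eq]
    rw [abs_of_nonneg (by positivity)]
    exact hbound t
  have seg : ∀ a b, a ≤ b → |G b - G a| ≤ ∫ t in a..b, |deriv F t| * Real.exp (-F t) := by
    intro a b hab
    rw [← ((hGlip.lipschitzOnWith (s := uIcc a b)).absolutelyContinuousOnInterval).integral_deriv_eq_sub]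
    refine (intervalIntegral.abs_integral_le_integral_abs hab).trans (le_of_eq ?_)
    refine intervalIntegral.integral_congr_ae ?_
    filter_upwards [hF.ae_differentiableAt_real] with t ht _
    have hd : HasDerivAt (fun t => Real.exp (-F t)) (Real.exp (-F t) * -deriv F t) t :=
      ht.hasDerivAt.neg.exp
    rw [hG, hd.deriv]
    simp [abs_mul, mul_comm]
  have half : ∀ a b, a ≤ b → ENNReal.ofReal |G b - G a| ≤
      ∫⁻ t in Ioc a b, ENNReal.ofReal (|deriv F t| * Real.exp (-F t)) := by
    intro a b hab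
    rw [← ofReal_integral_eq_lintegral_ofReal ((intervalIntegrable_iff_integrableOn_Ioc_of_le hab).1
      (hint a b)) (Eventually.of_forall fun t => by positivity),
      ← intervalIntegral.integral_of_le hab]
    exact ENNReal.ofReal_le_ofReal (seg a b hab)
  have lim : Tendsto (fun T => ENNReal.ofReal |G c - G (c - T)| + ENNReal.ofReal |G (c + T) - G c|)
      atTop (𝓝 (ENNReal.ofReal (G c) + ENNReal.ofReal (G c))) := by
    have hr : Tendsto (fun T => G (c + T)) atTop (𝓝 0) :=
      Real.tendsto_exp_neg_atTop_nhds_zero.comp (htop.comp (tendsto_atTop_add_const_left _ c tendsto_id))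
    have hl : Tendsto (fun T => G (c - T)) atTop (𝓝 0) :=
      Real.tendsto_exp_neg_atTop_nhds_zero.comp (hbot.comp
        (tendsto_atBot_add_const_left _ c tendsto_neg_atTop_atBot))
    have h1 := ((tendsto_const_nhds (x := G c)).sub hl).abs
    have h2 := (hr.sub (tendsto_const_nhds (x := G c))).abs
    rw [sub_zero, abs_of_pos (Real.exp_pos _)] at h1
    rw [zero_sub, abs_neg, abs_of_pos (Real.exp_pos _)] at h2
    exact (ENNReal.tendsto_ofReal h1).add (ENNReal.tendsto_ofReal h2)
  rw [two_mul]
  refine le_of_tendsto lim ?_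
  filter_upwards [eventually_ge_atTop 0] with T hT
  refine (add_le_add (half (c - T) c (by linarith)) (half c (c + T) (by linarith))).trans ?_
  rw [← lintegral_union measurableSet_Ioc (by simp)]
  exact setLIntegral_le_lintegral _ _

/-- On every line the variation pays twice the section. -/
theorem line_bound {K : Set (Fin (n + 1) → ℝ)} (hK : SymBody K) (i : Fin (n + 1))
    (y : Fin n → ℝ) :
    2 * ENNReal.ofReal (Real.exp (-supp (sec K i) y)) ≤
      ∫⁻ t, ENNReal.ofReal (|lineDeriv ℝ (supp K) (ins i t y) (Pi.single i 1)| *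
        Real.exp (-supp K (ins i t y))) := by
  obtain ⟨C, hC⟩ := hK.exists_lipschitz
  set F := fun t => supp K (ins i t y)
  have hins : ∀ t u : ℝ, ins i t y + u • Pi.single i 1 = ins i (t + u) y := fun t u => by
    ext j
    rcases Fin.eq_self_or_eq_succAbove i j with rfl | ⟨m, rfl⟩ <;>
      simp [Pi.single_eq_of_ne (Fin.succAbove_ne _ _)]
  have hd : ∀ t, lineDeriv ℝ (supp K) (ins i t y) (Pi.single i 1) = deriv F t := fun t => by
    rw [lineDeriv]
    simp only [hins]
    have h := deriv_comp_const_add (f := F) t 0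
    rwa [add_zero] at h
  have hF : LipschitzWith C F := LipschitzWith.of_dist_le_mul fun s t => by
    refine (hC.dist_le_mul _ _).trans (mul_le_mul_of_nonneg_left ?_ (NNReal.coe_nonneg C))
    rw [dist_pi_le_iff dist_nonneg]
    intro j
    rcases Fin.eq_self_or_eq_succAbove i j with rfl | ⟨m, rfl⟩ <;> simp
  obtain ⟨r, hr, hball⟩ := Metric.isOpen_iff.1 isOpen_interior 0 hK.zero_mem_interior
  have hp : (Pi.single i (r / 2) : Fin (n + 1) → ℝ) ∈ K := by
    refine interior_subset (hball ?_)
    rw [mem_ball_zero_iff, Pi.norm_single, Real.norm_eq_abs, abs_of_pos (by linarith)]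
    linarith
  have hlow : ∀ t, r / 2 * |t| ≤ F t := fun t => by
    have h1 := hK.le_supp hp (ins i t y)
    have h2 := hK.le_supp (hK.neg_mem _ hp) (ins i t y)
    simp [sum_ins, Pi.single_eq_of_ne (Fin.succAbove_ne _ _)] at h1 h2
    rcases le_total 0 t with h | h
    · rw [abs_of_nonneg h]; exact h1
    · rw [abs_of_nonpos h]; simp only [F]; linarith
  have htop : Tendsto F atTop atTop := tendsto_atTop_mono hlow
    (tendsto_abs_atTop_atTop.const_mul_atTop (by linarith))
  have hbot : Tendsto F atBot atTop := tendsto_atTop_mono hlow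
    (tendsto_abs_atBot_atTop.const_mul_atTop (by linarith))
  obtain ⟨c, hc⟩ := exists_supp_ins_le hK i y
  calc 2 * ENNReal.ofReal (Real.exp (-supp (sec K i) y))
      ≤ 2 * ENNReal.ofReal (Real.exp (-F c)) := by
        gcongr
    _ ≤ ∫⁻ t, ENNReal.ofReal (|deriv F t| * Real.exp (-F t)) :=
        two_exp_le_lintegral hF (fun t => hK.supp_nonneg _) htop hbot c
    _ = _ := by simp only [hd, F]

end Vale.Agent.P248.Balanced
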