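import Vale.Agent.P248.Balanced.Cones
import Vale.Agent.P248.Balanced.Lines

/-!
# The volume product of an equipartitioned body
-/

open MeasureTheory Set Filter
open scoped ENNReal NNReal Topology Nat

noncomputable section

namespace Vale.Agent.P248.Balanced

variable {n : ℕ}

/-- `∫ exp (-h)`, which is `n!` times the volume of the polar body. -/
def suppInt (K : Set (Fin n → ℝ)) : ℝ≥0∞ :=
  ∫⁻ y, ENNReal.ofReal (Real.exp (-supp K y))

theorem measurable_expNeg {K : Set (Fin n → ℝ)} (hK : SymBody K) :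
    Measurable fun y => Real.exp (-supp K y) :=
  Real.measurable_exp.comp hK.continuous_supp.measurable.neg

theorem lineDeriv_le_supp {K : Set (Fin n → ℝ)} (hK : SymBody K) {x : Fin n → ℝ}
    (hx : DifferentiableAt ℝ (supp K) x) (w : Fin n → ℝ) :
    lineDeriv ℝ (supp K) x w ≤ supp K w := by
  have h : HasDerivAt (fun t : ℝ => supp K (x + t • w)) (lineDeriv ℝ (supp K) x w) 0 :=
    hx.lineDifferentiableAt.hasLineDerivAt
  refine le_of_tendsto h.tendsto_slope_zero_right ?_
  filter_upwards [self_mem_nhdsWithin] with t ht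
  have ht0 : 0 < t := ht
  have h1 := hK.supp_add x (t • w)
  have h2 := hK.supp_smul t w
  rw [abs_of_pos ht0] at h2
  simp only [zero_add, zero_smul, add_zero, smul_eq_mul]
  rw [inv_mul_le_iff₀ ht0]
  linarith

theorem Split.sum_deriv_le {K : Set (Fin (n + 1) → ℝ)} (hE : Split K) (hS : SymBody K)
    {x : Fin (n + 1) → ℝ} (hx : DifferentiableAt ℝ (supp K) x) :
    ∑ i, volume.real (Balanced.sec K i) * |lineDeriv ℝ (supp K) x (Pi.single i 1)| ≤
      (n + 1) / 2 * volume.real K := by
  set L := fderiv ℝ (supp K) x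
  have hL : ∀ v, lineDeriv ℝ (supp K) x v = L v := fun v => hx.lineDeriv_eq_fderiv
  set V := fun i => volume.real (Balanced.sec K i)
  have hV : ∀ i, 0 ≤ V i := fun i => measureReal_nonneg
  set w : Fin (n + 1) → ℝ := fun i => if 0 ≤ L (Pi.single i 1) then V i else -V i with hw
  have hLw : L w = ∑ i, V i * |L (Pi.single i 1)| := by
    conv_lhs => rw [pi_eq_sum_univ' w]
    rw [map_sum]
    refine Finset.sum_congr rfl fun i _ => ?_
    rw [map_smul, smul_eq_mul]
    by_cases h : 0 ≤ L (Pi.single i 1)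
    · simp only [hw, h, if_true, abs_of_nonneg h]
    · simp only [hw, h, if_false, abs_of_neg (not_le.1 h)]; ring
  calc _ = L w := by rw [hLw]; simp only [hL, V]
    _ = lineDeriv ℝ (supp K) x w := (hL w).symm
    _ ≤ supp K w := lineDeriv_le_supp hS hx w
    _ ≤ _ := hS.supp_le fun z hz => by
        refine le_trans (Finset.sum_le_sum fun i _ => ?_) (hE.sum_le hS hz)
        refine (le_abs_self _).trans (le_of_eq ?_)
        rw [abs_mul]
        congr 1
        show |w i| = V i
        by_cases h : 0 ≤ L (Pi.single i 1) <;> simp [hw, h, abs_of_nonneg (hV i)]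

/-- The section integral is controlled by the directional derivative. -/
theorem two_suppInt_sec_le {K : Set (Fin (n + 1) → ℝ)} (hS : SymBody K) (i : Fin (n + 1)) :
    2 * suppInt (sec K i) ≤ ∫⁻ x, ENNReal.ofReal
      (|lineDeriv ℝ (supp K) x (Pi.single i 1)| * Real.exp (-supp K x)) := by
  have hmp := (volume_preserving_piFinSuccAbove (fun _ : Fin (n + 1) => ℝ) i).symm
  have hm : Measurable fun x : Fin (n + 1) → ℝ => ENNReal.ofReal
      (|lineDeriv ℝ (supp K) x (Pi.single i 1)| * Real.exp (-supp K x)) :=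
    ((measurable_lineDeriv hS.continuous_supp).abs.mul
      (measurable_expNeg hS)).ennreal_ofReal
  have hp := lintegral_prod_symm (μ := (volume : Measure ℝ)) (ν := (volume : Measure (Fin n → ℝ)))
    _ (hm.comp hmp.measurable).aemeasurable
  simp only [Function.comp_def] at hp
  rw [← hmp.lintegral_comp hm, Measure.volume_eq_prod, hp, suppInt,
    ← lintegral_const_mul _ (measurable_expNeg (hS.sec i)).ennreal_ofReal]
  refine lintegral_mono fun y => (line_bound hS i y).trans (le_of_eq ?_)
  simp [ins, Fin.insertNthEquiv]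

/-- The inductive step. -/
theorem Split.step {K : Set (Fin (n + 1) → ℝ)} (hE : Split K) (hS : SymBody K)
    (hrec : ∀ i, (4 : ℝ≥0∞) ^ n ≤ volume (Balanced.sec K i) * suppInt (Balanced.sec K i)) :
    (4 : ℝ≥0∞) ^ (n + 1) ≤ volume K * suppInt K := by
  obtain ⟨C, hC⟩ := hS.exists_lipschitz
  have hV : ∀ {m : ℕ} {A : Set (Fin m → ℝ)}, SymBody A →
      ENNReal.ofReal (volume.real A) = volume A :=
    fun hA => ofReal_measureReal hA.compact.measure_lt_top.ne
  have hae : ∀ᵐ x, ∑ i, volume (Balanced.sec K i) *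
      ENNReal.ofReal (|lineDeriv ℝ (supp K) x (Pi.single i 1)| * Real.exp (-supp K x)) ≤
      ENNReal.ofReal ((n + 1) / 2) * volume K * ENNReal.ofReal (Real.exp (-supp K x)) := by
    filter_upwards [hC.ae_differentiableAt] with x hx
    have h := hE.sum_deriv_le hS hx
    calc _ = ∑ i, ENNReal.ofReal ((volume.real (Balanced.sec K i) *
          |lineDeriv ℝ (supp K) x (Pi.single i 1)|) * Real.exp (-supp K x)) := by
          refine Finset.sum_congr rfl fun i _ => ?_
          rw [← hV (hS.sec i), ← ENNReal.ofReal_mul measureReal_nonneg, mul_assoc]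
      _ = ENNReal.ofReal ((∑ i, volume.real (Balanced.sec K i) *
          |lineDeriv ℝ (supp K) x (Pi.single i 1)|) * Real.exp (-supp K x)) := by
          rw [Finset.sum_mul, ENNReal.ofReal_sum_of_nonneg fun i _ => by positivity]
      _ ≤ ENNReal.ofReal (((n + 1) / 2 * volume.real K) * Real.exp (-supp K x)) :=
          ENNReal.ofReal_le_ofReal (mul_le_mul_of_nonneg_right h (Real.exp_pos _).le)
      _ = _ := by
          rw [ENNReal.ofReal_mul (by positivity), ENNReal.ofReal_mul (by positivity), hV hS]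
  have hint := lintegral_mono_ae hae
  have hm : ∀ i, Measurable fun x => ENNReal.ofReal
      (|lineDeriv ℝ (supp K) x (Pi.single i 1)| * Real.exp (-supp K x)) := fun i =>
    ((measurable_lineDeriv hS.continuous_supp).abs.mul
      (measurable_expNeg hS)).ennreal_ofReal
  rw [lintegral_finsetSum _ fun i _ => (hm i).const_mul _, lintegral_const_mul _
    (measurable_expNeg hS).ennreal_ofReal] at hint
  have hlow : ∑ _i : Fin (n + 1), 2 * (4 : ℝ≥0∞) ^ n ≤
      ENNReal.ofReal ((n + 1) / 2) * (volume K * suppInt K) := by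
    rw [← mul_assoc]
    refine le_trans (Finset.sum_le_sum fun i _ => ?_) hint
    calc 2 * (4 : ℝ≥0∞) ^ n ≤ 2 * (volume (Balanced.sec K i) * suppInt (Balanced.sec K i)) :=
          mul_le_mul' le_rfl (hrec i)
      _ = volume (Balanced.sec K i) * (2 * suppInt (Balanced.sec K i)) := mul_left_comm _ _ _
      _ ≤ _ := by
          rw [lintegral_const_mul _ (hm i)]
          exact mul_le_mul' le_rfl (two_suppInt_sec_le hS i)
  have hc : ENNReal.ofReal ((n + 1) / 2) * (4 : ℝ≥0∞) ^ (n + 1) =
      ∑ _i : Fin (n + 1), 2 * (4 : ℝ≥0∞) ^ n := by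
    rw [Finset.sum_const, Finset.card_univ, Fintype.card_fin, nsmul_eq_mul,
      show ((n : ℝ) + 1) / 2 = ((n + 1 : ℕ) : ℝ) / 2 by push_cast; ring,
      ENNReal.ofReal_div_of_pos two_pos, ENNReal.ofReal_natCast, ENNReal.ofReal_ofNat, pow_succ,
      show (4 : ℝ≥0∞) ^ n * 4 = 2 * (2 * 4 ^ n) by ring, ← mul_assoc,
      ENNReal.div_mul_cancel two_ne_zero (by simp)]
  rw [← hc] at hlow
  exact (ENNReal.mul_le_mul_iff_right (by simp; positivity) ENNReal.ofReal_ne_top).1 hlow

theorem four_pow_le : ∀ {n : ℕ} {K : Set (Fin n → ℝ)}, SymBody K → Equipartite K →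
    (4 : ℝ≥0∞) ^ n ≤ volume K * suppInt K := by
  intro n
  induction n with
  | zero =>
    intro K hS _
    have hK : K = univ := Subsingleton.eq_univ_of_nonempty ⟨0, hS.zero_mem⟩
    have h0 : ∀ y, supp K y = 0 := fun y => by rw [Subsingleton.elim y 0, hS.supp_zero]
    rw [suppInt]
    simp only [h0]
    simp [hK, volume_pi]
  | succ n ih => exact fun hS hE => (hE.split hS).step hS fun i => ih (hS.sec i) (hE.sec i)

theorem polar_eq {K : Set (Fin n → ℝ)} (hS : SymBody K) : polar K = {y | supp K y ≤ 1} := by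
  ext y
  exact ⟨fun h => hS.supp_le h, fun h x hx => (hS.le_supp hx y).trans h⟩

theorem suppInt_eq {K : Set (Fin n → ℝ)} (hS : SymBody K) :
    suppInt K = (n ! : ℝ≥0∞) * volume (polar K) ∧ volume (polar K) ≠ ⊤ := by
  rcases Nat.eq_zero_or_pos n with rfl | hn
  · have h0 : ∀ y, supp K y = 0 := fun y => by rw [Subsingleton.elim y 0, hS.supp_zero]
    simp [suppInt, polar_eq hS, h0, volume_pi]
  have : Nonempty (Fin n) := Fin.pos_iff_nonempty.1 hn
  have h1 := measure_lt_one_eq_integral_div_gamma (volume : Measure (Fin n → ℝ))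
    hS.supp_zero hS.supp_neg hS.supp_add (fun {x} => hS.eq_zero_of_supp) hS.supp_smul one_pos
  rw [← measure_le_eq_lt (volume : Measure (Fin n → ℝ)) hS.supp_zero hS.supp_neg hS.supp_add
    (fun {x} => hS.eq_zero_of_supp) hS.supp_smul, ← polar_eq hS] at h1
  simp only [Real.rpow_one, div_one, Module.finrank_pi, Fintype.card_fin,
    Real.Gamma_nat_eq_factorial] at h1
  have hpos : 0 < volume (polar K) := by
    rw [polar_eq hS]
    refine lt_of_lt_of_le ((isOpen_lt hS.continuous_supp continuous_const).measure_pos volume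
      ⟨0, show supp K 0 < 1 by rw [hS.supp_zero]; exact one_pos⟩) (measure_mono ?_)
    exact fun y (hy : supp K y < 1) => hy.le
  have hI : Integrable fun y => Real.exp (-supp K y) := by
    by_contra h
    rw [h1, integral_undef h] at hpos
    simp at hpos
  have hsI : suppInt K = ENNReal.ofReal (∫ y, Real.exp (-supp K y)) :=
    (ofReal_integral_eq_lintegral_ofReal hI (Eventually.of_forall fun y => (Real.exp_pos _).le)).symm
  refine ⟨?_, h1 ▸ ENNReal.ofReal_ne_top⟩
  rw [hsI, h1, ← ENNReal.ofReal_natCast, ← ENNReal.ofReal_mul (Nat.cast_nonneg _)]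
  congr 1
  field_simp

/-- From the integral form to the volume product. -/
theorem mahler_of_four_pow_le {K : Set (Fin n → ℝ)} (hS : SymBody K)
    (hb : (4 : ℝ≥0∞) ^ n ≤ volume K * suppInt K) :
    (4 : ℝ) ^ n / n ! ≤ volume.real K * volume.real (polar K) := by
  obtain ⟨h1, h2⟩ := suppInt_eq hS
  have h := ENNReal.toReal_mono
    (ENNReal.mul_ne_top hS.compact.measure_lt_top.ne
      (h1 ▸ ENNReal.mul_ne_top (ENNReal.natCast_ne_top _) h2)) hb
  rw [h1] at h
  simp only [ENNReal.toReal_pow, ENNReal.toReal_mul, ENNReal.toReal_natCast,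
    ENNReal.toReal_ofNat] at h
  rw [div_le_iff₀ (by positivity), Measure.real, Measure.real]
  linarith

/-- The symmetric Mahler bound for equipartitioned bodies. -/
theorem mahler_of_equipartite {K : Set (Fin n → ℝ)} (hS : SymBody K) (hE : Equipartite K) :
    (4 : ℝ) ^ n / n ! ≤ volume.real K * volume.real (polar K) :=
  mahler_of_four_pow_le hS (four_pow_le hS hE)

end Vale.Agent.P248.Balanced
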