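import Vale.Agent.P248.Balanced.Defs

/-!
# Sections, orthants and coordinate hyperplanes
-/

open MeasureTheory Set
open scoped ENNReal

noncomputable section

namespace Vale.Agent.P248.Balanced

variable {n : ℕ}

/-- Insert the value `t` as coordinate `i`. -/
def ins (i : Fin (n + 1)) (t : ℝ) (z : Fin n → ℝ) : Fin (n + 1) → ℝ :=
  Fin.insertNth (α := fun _ => ℝ) i t z

@[simp]
theorem ins_same (i : Fin (n + 1)) (t : ℝ) (z : Fin n → ℝ) : ins i t z i = t :=
  Fin.insertNth_apply_same (α := fun _ => ℝ) i t z

@[simp]
theorem ins_above (i : Fin (n + 1)) (t : ℝ) (z : Fin n → ℝ) (m : Fin n) :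
    ins i t z (i.succAbove m) = z m :=
  Fin.insertNth_apply_succAbove (α := fun _ => ℝ) i t z m

/-- The section by the hyperplane `xᵢ = 0`. -/
def sec (K : Set (Fin (n + 1) → ℝ)) (i : Fin (n + 1)) : Set (Fin n → ℝ) :=
  {z | ins i 0 z ∈ K}

theorem extend_succAbove (i : Fin (n + 1)) (z : Fin n → ℝ) :
    Function.extend i.succAbove z 0 = ins i 0 z := by
  ext j
  rcases Fin.eq_self_or_eq_succAbove i j with rfl | ⟨m, rfl⟩
  · rw [ins_same, Function.extend_apply']
    · rfl
    · exact fun ⟨m, hm⟩ => Fin.succAbove_ne _ m hm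
  · rw [ins_above, (Fin.succAbove_right_injective).extend_apply]

theorem sec_eq_coordSection (K : Set (Fin (n + 1) → ℝ)) (i : Fin (n + 1)) :
    sec K i = coordSection K i.succAboveEmb := by
  ext z
  simp [sec, coordSection, extend_succAbove]

theorem Equipartite.sec {K : Set (Fin (n + 1) → ℝ)} (h : Equipartite K) (i : Fin (n + 1)) :
    Equipartite (sec K i) := by
  intro k e s t
  have he : coordSection (Balanced.sec K i) e = coordSection K (e.trans i.succAboveEmb) := by
    ext z
    simp only [coordSection, Balanced.sec, Set.mem_setOf_eq]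
    rw [iff_iff_eq]
    congr 1
    ext j
    rcases Fin.eq_self_or_eq_succAbove i j with rfl | ⟨m, rfl⟩
    · rw [ins_same, Function.extend_apply']
      · rfl
      · exact fun ⟨a, ha⟩ => Fin.succAbove_ne _ (e a) ha
    · rw [ins_above]
      by_cases hm : ∃ a, e a = m
      · obtain ⟨a, rfl⟩ := hm
        rw [e.injective.extend_apply]
        exact ((e.trans i.succAboveEmb).injective.extend_apply z 0 a).symm
      · rw [Function.extend_apply' _ _ _ hm, Function.extend_apply']
        · rfl
        · rintro ⟨a, ha⟩
          exact hm ⟨a, Fin.succAbove_right_injective ha⟩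
  rw [he]
  exact h k _ s t

theorem continuous_insertNth_zero (i : Fin (n + 1)) :
    Continuous fun z : Fin n → ℝ => ins i 0 z := by
  refine continuous_pi fun j => ?_
  rcases Fin.eq_self_or_eq_succAbove i j with rfl | ⟨m, rfl⟩
  · simp only [ins_same]; exact continuous_const
  · simp only [ins_above]; exact continuous_apply m

theorem insertNth_lin (i : Fin (n + 1)) (a b c d : ℝ) (z w : Fin n → ℝ) :
    a • ins i c z + b • ins i d w = ins i (a * c + b * d) (a • z + b • w) := by
  ext j
  rcases Fin.eq_self_or_eq_succAbove i j with rfl | ⟨m, rfl⟩ <;> simp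

theorem SymBody.zero_mem_interior {K : Set (Fin n → ℝ)} (hK : SymBody K) :
    (0 : Fin n → ℝ) ∈ interior K := by
  obtain ⟨p, hp⟩ := hK.interior_nonempty
  have h := hK.convex.openSegment_interior_self_subset_interior hp
    (hK.neg_mem p (interior_subset hp))
  exact h ⟨1 / 2, 1 / 2, by norm_num, by norm_num, by norm_num, by rw [smul_neg, add_neg_cancel]⟩

theorem SymBody.sec {K : Set (Fin (n + 1) → ℝ)} (hK : SymBody K) (i : Fin (n + 1)) :
    SymBody (sec K i) := by
  refine ⟨?_, fun z hz w hw a b ha hb hab => ?_, ⟨0, ?_⟩, fun z hz => ?_⟩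
  · obtain ⟨R, hR⟩ := hK.compact.isBounded.subset_closedBall 0
    refine (isCompact_closedBall (0 : Fin n → ℝ) (max R 0)).of_isClosed_subset
      (hK.compact.isClosed.preimage (continuous_insertNth_zero i)) fun z hz => ?_
    rw [mem_closedBall_zero_iff, pi_norm_le_iff_of_nonneg (le_max_right _ _)]
    intro m
    have h := mem_closedBall_zero_iff.1 (hR hz)
    have h2 := norm_le_pi_norm (ins i 0 z) (i.succAbove m)
    rw [ins_above] at h2
    exact (h2.trans h).trans (le_max_left _ _)
  · have := hK.convex hz hw ha hb hab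
    rw [insertNth_lin] at this
    simpa [Balanced.sec] using this
  · refine mem_interior_iff_mem_nhds.2
      ((continuous_insertNth_zero i).continuousAt.preimage_mem_nhds ?_)
    have h0 : ins i 0 (0 : Fin n → ℝ) = 0 := by
      ext j
      rcases Fin.eq_self_or_eq_succAbove i j with rfl | ⟨m, rfl⟩ <;> simp
    rw [h0]
    exact mem_interior_iff_mem_nhds.1 hK.zero_mem_interior
  · have := hK.neg_mem _ hz
    have he : -(ins i 0 z) = ins i 0 (-z) := by
      ext j
      rcases Fin.eq_self_or_eq_succAbove i j with rfl | ⟨m, rfl⟩ <;> simp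
    rwa [he] at this

/-- Flipping the coordinates whose sign is `false`. -/
def flipFun (s : Fin n → Bool) (x : Fin n → ℝ) : Fin n → ℝ :=
  fun j => if s j then x j else -x j

theorem flipFun_flipFun (s : Fin n → Bool) (x : Fin n → ℝ) : flipFun s (flipFun s x) = x := by
  ext j; by_cases h : s j <;> simp [flipFun, h]

theorem measurePreserving_flipFun (s : Fin n → Bool) :
    MeasurePreserving (flipFun s) volume volume := by
  refine volume_preserving_pi (f := fun j (t : ℝ) => if s j then t else -t) fun j => ?_
  by_cases h : s j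
  · simp only [h, if_true]; exact MeasurePreserving.id _
  · simp only [h]; exact Measure.measurePreserving_neg (volume : Measure ℝ)

theorem mem_orthant_iff {s : Fin n → Bool} {x : Fin n → ℝ} :
    x ∈ orthant s ↔ ∀ j, 0 ≤ flipFun s x j := Iff.rfl

theorem isClosed_orthant (s : Fin n → Bool) : IsClosed (orthant s) := by
  have h : orthant s = ⋂ i, {x : Fin n → ℝ | 0 ≤ if s i then x i else -x i} := by
    ext x; simp [orthant]
  rw [h]
  refine isClosed_iInter fun i => isClosed_le continuous_const ?_
  by_cases hs : s i <;> simp only [hs, if_true, if_false, Bool.false_eq_true] <;> fun_prop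

theorem volume_coord_eq_zero (j : Fin n) : volume {x : Fin n → ℝ | x j = 0} = 0 := by
  refine Measure.addHaar_submodule volume (LinearMap.ker (LinearMap.proj j : (Fin n → ℝ) →ₗ[ℝ] ℝ)) ?_
  intro h
  have h2 : (Pi.single j (1 : ℝ) : Fin n → ℝ) ∈
      LinearMap.ker (LinearMap.proj j : (Fin n → ℝ) →ₗ[ℝ] ℝ) := h ▸ Submodule.mem_top
  simp at h2

/-- The orthants cover with negligible overlaps. -/
theorem sum_orthant {A : Set (Fin n → ℝ)} (hA : MeasurableSet A) :
    ∑ s : Fin n → Bool, volume (A ∩ orthant s) = volume A := by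
  have hd : Pairwise (Function.onFun (AEDisjoint volume) fun s : Fin n → Bool => A ∩ orthant s) := by
    intro s t hst
    obtain ⟨j, hj⟩ := Function.ne_iff.1 hst
    refine measure_mono_null (fun x hx => ?_) (volume_coord_eq_zero j)
    have h1 := hx.1.2 j
    have h2 := hx.2.2 j
    show x j = 0
    revert h1 h2
    cases hs : s j <;> cases ht : t j <;> simp_all <;> intros <;> linarith
  have hm : ∀ s, NullMeasurableSet (A ∩ orthant s) volume := fun s =>
    (hA.inter (isClosed_orthant s).measurableSet).nullMeasurableSet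
  have h := measure_iUnion₀ (μ := (volume : Measure (Fin n → ℝ))) hd hm
  rw [tsum_fintype] at h
  rw [← h]
  congr 1
  ext x
  simp only [mem_iUnion, mem_inter_iff, exists_and_left, and_iff_left_iff_imp]
  intro _
  refine ⟨fun j => decide (0 ≤ x j), fun j => ?_⟩
  by_cases hx : 0 ≤ x j
  · simp [hx]
  · simp [hx]; linarith

/-- The all-positive sign pattern. -/
def pos (n : ℕ) : Fin n → Bool := fun _ => true

/-- For an equipartitioned body each orthant has the mean volume. -/
theorem Equipartite.orthant_eq {K : Set (Fin n → ℝ)} (h : Equipartite K)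
    (hK : MeasurableSet K) (s : Fin n → Bool) :
    2 ^ n * volume (K ∩ orthant s) = volume K := by
  have hid : coordSection K (Function.Embedding.refl _) = K := by
    ext z
    have hz : Function.extend (Function.Embedding.refl (Fin n)) z 0 = z :=
      funext fun a => (Function.Embedding.refl (Fin n)).injective.extend_apply z 0 a
    simp only [coordSection, mem_setOf_eq, hz]
  rw [← sum_orthant hK]
  have : ∀ t, volume (K ∩ orthant t) = volume (K ∩ orthant s) := fun t => by
    simpa [hid] using h n (Function.Embedding.refl _) t s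
  simp [this]

end Vale.Agent.P248.Balanced
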